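import Mathlib

/-!
An even continuous function on the unit sphere of a space of dimension at least three has, for
every `ε > 0`, a connected set containing an antipodal pair on which it varies by less than `ε`.
-/

set_option linter.unusedSectionVars false

open Set Filter Topology Metric

namespace Vale.Agent.P084.Strict

/-- A tent function. -/
noncomputable def tent (t : ℝ) : ℝ := max 0 (1 - |t|)

lemma continuous_tent : Continuous tent := by unfold tent; fun_prop

lemma tent_eq_zero {t : ℝ} (h : 1 ≤ |t|) : tent t = 0 := max_eq_left (by linarith)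

section

variable {E : Type*} [NormedAddCommGroup E] [NormedSpace ℝ E]

/-- The punctured band of `h` at level `i`. -/
def band (h : E → ℝ) (i : ℤ) : Set E := {x | x ≠ 0 ∧ |h x - i| < 1}

lemma isOpen_band {h : E → ℝ} (hc : ContinuousOn h {x | x ≠ 0}) (i : ℤ) : IsOpen (band h i) :=
  (hc.isOpen_inter_preimage isOpen_ne (isOpen_lt (f := fun t : ℝ => |t - i|) (by fun_prop)
    continuous_const) : IsOpen ({x : E | x ≠ 0} ∩ h ⁻¹' {t | |t - i| < 1}))

open scoped Classical in
/-- An odd, locally constant choice of sign on a band none of whose components is symmetric. -/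
noncomputable def sgn (h : E → ℝ) (i : ℤ) (x : E) : ℂ :=
  if WellOrderingRel (connectedComponentIn (band h i) x) (connectedComponentIn (band h i) (-x))
  then 1 else -1

lemma norm_sgn (h : E → ℝ) (i : ℤ) (x : E) : ‖sgn h i x‖ = 1 := by
  unfold sgn; split_ifs <;> simp

/-- The odd map to the plane. -/
noncomputable def psi (h : E → ℝ) (n : ℤ) (x : E) : ℂ :=
  ∑ i ∈ Finset.Icc (-n) n, (tent (h x - i) : ℂ) * sgn h i x * if Even i then 1 else Complex.I

variable {h : E → ℝ} {n : ℤ}

lemma band_symm (he : ∀ x, h (-x) = h x) {i : ℤ} {x : E} :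
    -x ∈ band h i ↔ x ∈ band h i := by simp [band, he]

lemma neg_image_component (he : ∀ x, h (-x) = h x) {i : ℤ} {x y : E} (hx : x ∈ band h i)
    (hy : y ∈ connectedComponentIn (band h i) x) :
    connectedComponentIn (band h i) (-y) = connectedComponentIn (band h i) (-x) := by
  have hp : IsPreconnected ((fun z => -z) '' connectedComponentIn (band h i) x) :=
    isPreconnected_connectedComponentIn.image _ continuous_neg.continuousOn
  have hs : (fun z => -z) '' connectedComponentIn (band h i) x ⊆ band h i := by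
    rintro _ ⟨z, hz, rfl⟩
    exact (band_symm he).2 (connectedComponentIn_subset _ _ hz)
  exact (connectedComponentIn_eq
    (hp.subset_connectedComponentIn ⟨x, mem_connectedComponentIn hx, rfl⟩ hs ⟨y, hy, rfl⟩)).symm

lemma sgn_neg (he : ∀ x, h (-x) = h x) {i : ℤ} {x : E} (hx : x ∈ band h i)
    (hno : -x ∉ connectedComponentIn (band h i) x) : sgn h i (-x) = -sgn h i x := by
  have hne : connectedComponentIn (band h i) x ≠ connectedComponentIn (band h i) (-x) :=
    fun e => hno (e ▸ mem_connectedComponentIn ((band_symm he).2 hx))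
  unfold sgn
  rw [neg_neg x]
  rcases trichotomous_of WellOrderingRel (connectedComponentIn (band h i) x)
    (connectedComponentIn (band h i) (-x)) with h1 | h1 | h1
  · rw [if_pos h1, if_neg (asymm h1)]
  · exact absurd h1 hne
  · rw [if_pos h1, if_neg (asymm h1), neg_neg]

lemma continuousAt_term (hc : ContinuousOn h {x | x ≠ 0}) (he : ∀ x, h (-x) = h x) (i : ℤ)
    {x : E} (hx : x ≠ 0) :
    ContinuousAt (fun y => (tent (h y - i) : ℂ) * sgn h i y) x := by
  have hh : ContinuousAt h x := hc.continuousAt (isOpen_ne.mem_nhds hx)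
  have ht : ContinuousAt (fun y => (tent (h y - i) : ℂ)) x :=
    Complex.continuous_ofReal.continuousAt.comp
      (continuous_tent.continuousAt.comp (hh.sub continuousAt_const))
  by_cases hb : x ∈ band h i
  · have hev : ∀ᶠ y in 𝓝 x, (tent (h y - i) : ℂ) * sgn h i x
        = (tent (h y - i) : ℂ) * sgn h i y := by
      filter_upwards [(isOpen_band hc i).connectedComponentIn.mem_nhds
        (mem_connectedComponentIn hb)] with y hy
      simp only [sgn]
      rw [← connectedComponentIn_eq hy, neg_image_component he hb hy]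
    exact (ht.mul continuousAt_const).congr hev
  · have h1 : 1 ≤ |h x - i| := not_lt.1 fun hlt => hb ⟨hx, hlt⟩
    have h0 : (tent (h x - i) : ℂ) = 0 := by rw [tent_eq_zero h1]; simp
    rw [ContinuousAt, h0, zero_mul]
    have h5 := ht.norm.tendsto
    rw [h0, norm_zero] at h5
    refine squeeze_zero_norm (fun y => ?_) h5
    rw [norm_mul, norm_sgn, mul_one]

lemma continuousAt_psi (hc : ContinuousOn h {x | x ≠ 0}) (he : ∀ x, h (-x) = h x) {x : E}
    (hx : x ≠ 0) : ContinuousAt (psi h n) x :=
  tendsto_finsetSum _ fun i _ => (continuousAt_term hc he i hx).mul continuousAt_const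

lemma psi_neg (he : ∀ x, h (-x) = h x) {x : E} (hx : x ≠ 0)
    (hno : ∀ i x, x ∈ band h i → -x ∉ connectedComponentIn (band h i) x) :
    psi h n (-x) = -psi h n x := by
  unfold psi
  rw [← Finset.sum_neg_distrib]
  refine Finset.sum_congr rfl fun i _ => ?_
  rw [he]
  by_cases hb : x ∈ band h i
  · rw [sgn_neg he hb (hno i x hb)]; ring
  · rw [tent_eq_zero (not_lt.1 fun hlt => hb ⟨hx, hlt⟩)]; simp

lemma psi_ne_zero {x : E} (hn : |h x| + 2 ≤ n) : psi h n x ≠ 0 := by
  set k := ⌊h x⌋ with hk
  have h1 : (k : ℝ) ≤ h x := Int.floor_le _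
  have h2 : h x < k + 1 := Int.lt_floor_add_one _
  have habs := abs_le.1 (le_refl |h x|)
  have hsub : ({k, k + 1} : Finset ℤ) ⊆ Finset.Icc (-n) n := by
    intro i hi
    have e1 : (-n : ℝ) ≤ k := by linarith
    have e2 : ((k : ℝ) + 1) ≤ n := by linarith
    have e1' : -n ≤ k := by exact_mod_cast e1
    have e2' : k + 1 ≤ n := by exact_mod_cast e2
    rw [Finset.mem_Icc]
    simp only [Finset.mem_insert, Finset.mem_singleton] at hi
    omega
  have hsum : psi h n x = ∑ i ∈ ({k, k + 1} : Finset ℤ),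
      (tent (h x - i) : ℂ) * sgn h i x * if Even i then 1 else Complex.I := by
    refine (Finset.sum_subset hsub fun i _ hi => ?_).symm
    simp only [Finset.mem_insert, Finset.mem_singleton, not_or] at hi
    have : 1 ≤ |h x - i| := by
      rcases (by omega : i ≤ k - 1 ∨ k + 2 ≤ i) with h3 | h3
      · have h4 : (i : ℝ) ≤ k - 1 := by exact_mod_cast h3
        rw [abs_of_nonneg (by linarith)]; linarith
      · have h4 : (k : ℝ) + 2 ≤ i := by exact_mod_cast h3
        rw [abs_of_nonpos (by linarith)]; linarith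
    rw [tent_eq_zero this]; simp
  rw [hsum, Finset.sum_pair (by omega)]
  have t1 : 0 < tent (h x - k) :=
    lt_max_of_lt_right (by rw [abs_of_nonneg (by linarith)]; linarith)
  intro h0
  have hr : ∀ (i : ℤ), (sgn h i x).im = 0 ∧ (sgn h i x).re ≠ 0 := fun i => by
    unfold sgn; split_ifs <;> simp
  by_cases hev : Even k
  · have hodd : ¬ Even (k + 1) := fun e => Int.even_add_one.1 e hev
    have := congrArg Complex.re h0
    simp [hev, hodd, Complex.mul_re, Complex.mul_im, (hr k).1, (hr (k + 1)).1, (hr k).2,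
      t1.ne'] at this
  · have hev' : Even (k + 1) := Int.even_add_one.2 hev
    have := congrArg Complex.im h0
    simp [hev, hev', Complex.mul_re, Complex.mul_im, (hr k).1, (hr (k + 1)).1, (hr k).2,
      t1.ne'] at this

end

/-- No continuous odd nonvanishing map from the two-sphere to the plane. -/
lemma exists_zero_of_odd {Ψ : ℂ × ℝ → ℂ} (hc : ∀ x, x ≠ 0 → ContinuousAt Ψ x)
    (ho : ∀ x, x ≠ 0 → Ψ (-x) = -Ψ x) : ∃ x, x ≠ 0 ∧ Ψ x = 0 := by
  by_contra hne
  push Not at hne
  have hne0 : ∀ z : ℂ, ((z, 1 - ‖z‖) : ℂ × ℝ) ≠ 0 := by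
    intro z h
    simp only [Prod.mk_eq_zero] at h
    simp [h.1] at h
  have hg : Continuous fun z : ℂ => Ψ (z, 1 - ‖z‖) := continuous_iff_continuousAt.2 fun z =>
    (hc _ (hne0 z)).comp (f := fun z : ℂ => ((z, 1 - ‖z‖) : ℂ × ℝ)) (by fun_prop)
  obtain ⟨l, ⟨-, hl⟩, -⟩ := Complex.isCoveringMapOn_exp.existsUnique_continuousMap_lifts
    ⟨_, hg⟩ (a₀ := (0 : ℂ)) (Complex.exp_log (hne _ (hne0 0))) fun z => hne _ (hne0 z)
  have hexp : ∀ z, Complex.exp (l z) = Ψ (z, 1 - ‖z‖) := fun z => congrFun hl z
  set k : ℝ → ℝ := fun θ =>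
    (l (-Complex.exp (θ * Complex.I))).im - (l (Complex.exp (θ * Complex.I))).im with hk
  have hodd : ∀ θ, k (θ + Real.pi) = -k θ := by
    intro θ
    have e : Complex.exp (((θ + Real.pi : ℝ) : ℂ) * Complex.I)
        = -Complex.exp (θ * Complex.I) := by
      push_cast
      rw [add_mul, Complex.exp_add, Complex.exp_pi_mul_I]; ring
    simp only [hk, e, neg_neg]; ring
  have hk0 : ∀ θ, k θ ≠ 0 := by
    intro θ h0
    set w := Complex.exp (θ * Complex.I) with hw
    have hw1 : ‖w‖ = 1 := Complex.norm_exp_ofReal_mul_I θ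
    have h1 : Complex.exp (l (-w)) = -Complex.exp (l w) := by
      rw [hexp, hexp, norm_neg, hw1]
      simpa using ho ((w, 0) : ℂ × ℝ) (by
        simp only [ne_eq, Prod.mk_eq_zero, and_true]
        intro h; rw [h] at hw1; simp at hw1)
    have h2 : (l (-w)).re = (l w).re := by
      have := congrArg norm h1
      rw [norm_neg, Complex.norm_exp, Complex.norm_exp] at this
      exact Real.exp_injective this
    have h3 : l (-w) = l w := Complex.ext h2 (sub_eq_zero.1 h0)
    rw [h3, eq_neg_iff_add_eq_zero, ← two_mul] at h1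
    simp [Complex.exp_ne_zero] at h1
  have hkc : Continuous k := by
    simp only [hk]
    fun_prop
  obtain ⟨θ, -, hθ⟩ : ∃ θ ∈ uIcc 0 Real.pi, k θ = 0 := by
    refine intermediate_value_uIcc hkc.continuousOn ?_
    have := hodd 0
    rw [zero_add] at this
    rw [this, mem_uIcc]
    rcases le_total (k 0) 0 with h | h
    · exact Or.inl ⟨h, by linarith⟩
    · exact Or.inr ⟨by linarith, h⟩
  exact hk0 θ hθ

/-- An even continuous function on a sphere of dimension at least two is nearly constant on some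
connected set containing an antipodal pair. -/
theorem exists_band {V : Type*} [NormedAddCommGroup V] [NormedSpace ℝ V] [FiniteDimensional ℝ V]
    (h3 : 3 ≤ Module.finrank ℝ V) {F : V → ℝ} (hc : ContinuousOn F (Metric.sphere 0 1))
    (he : ∀ v ∈ Metric.sphere (0:V) 1, F (-v) = F v) {ε : ℝ} (hε : 0 < ε) :
    ∃ v C, IsPreconnected C ∧ v ∈ C ∧ -v ∈ C ∧ C ⊆ Metric.sphere 0 1 ∧
      ∀ p ∈ C, |F p - F v| < ε := by
  obtain ⟨L, hL⟩ : ∃ L : ℂ × ℝ →ₗ[ℝ] V, Function.Injective L := by
    obtain ⟨q, hq⟩ := exists_linearIndependent_of_le_finrank h3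
    have hd : Module.finrank ℝ (ℂ × ℝ) = 3 := by
      rw [Module.finrank_prod, Complex.finrank_real_complex, Module.finrank_self]
    let B : Module.Basis (Fin 3) ℝ (ℂ × ℝ) := Module.finBasisOfFinrankEq ℝ _ hd
    refine ⟨B.constr ℝ q, (injective_iff_map_eq_zero _).2 fun x hx => ?_⟩
    rw [Module.Basis.constr_apply_fintype] at hx
    have h0 := Fintype.linearIndependent_iff.1 hq _ hx
    exact B.equivFun.injective (by ext i; simpa using h0 i)
  set N : ℂ × ℝ → V := fun x => ‖L x‖⁻¹ • L x with hN
  have hLne : ∀ x, x ≠ 0 → L x ≠ 0 := fun x hx h => hx (hL (by simpa using h))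
  have hNs : ∀ x, x ≠ 0 → N x ∈ Metric.sphere (0 : V) 1 := fun x hx => by
    simp [hN, norm_smul, inv_mul_cancel₀ (norm_ne_zero_iff.2 (hLne x hx))]
  have hNc : ContinuousOn N {x | x ≠ 0} := by
    have hLc : Continuous L := L.continuous_of_finiteDimensional
    exact ContinuousOn.smul (hLc.norm.continuousOn.inv₀ fun x hx =>
      norm_ne_zero_iff.2 (hLne x hx)) hLc.continuousOn
  have hNneg : ∀ x, N (-x) = -N x := fun x => by simp [hN]
  set δ := ε / 2 with hδ
  have hδ0 : 0 < δ := half_pos hε
  set h : ℂ × ℝ → ℝ := fun x => if x = 0 then 0 else F (N x) / δ with hh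
  have hh' : ∀ x, x ≠ 0 → h x = F (N x) / δ := fun x hx => by simp [hh, hx]
  have hev : ∀ x, h (-x) = h x := by
    intro x
    by_cases hx : x = 0
    · simp [hx]
    · rw [hh' _ hx, hh' _ (neg_ne_zero.2 hx), hNneg, he _ (hNs x hx)]
  have hhc : ContinuousOn h {x | x ≠ 0} :=
    ((hc.comp hNc fun x hx => hNs x hx).div_const δ).congr fun x hx => hh' x hx
  by_cases hno : ∀ i x, x ∈ band h i → -x ∉ connectedComponentIn (band h i) x
  · obtain ⟨M, hM⟩ := (isCompact_sphere (0 : V) 1).exists_bound_of_continuousOn hc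
    set n : ℤ := ⌈M / δ + 2⌉
    obtain ⟨x, hx, h0⟩ := exists_zero_of_odd (Ψ := psi h n)
      (fun x hx => continuousAt_psi hhc hev hx) (fun x hx => psi_neg hev hx hno)
    refine absurd h0 (psi_ne_zero ?_)
    refine le_trans ?_ (Int.le_ceil _)
    rw [hh' x hx, abs_div, abs_of_pos hδ0]
    gcongr
    exact hM _ (hNs x hx)
  · push Not at hno
    obtain ⟨i, x, hx, hm⟩ := hno
    have hsub := connectedComponentIn_subset (band h i) x
    refine ⟨N x, N '' connectedComponentIn (band h i) x,
      isPreconnected_connectedComponentIn.image _ (hNc.mono fun y hy => (hsub hy).1),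
      ⟨x, mem_connectedComponentIn hx, rfl⟩, ⟨-x, hm, hNneg x⟩, ?_, ?_⟩
    · rintro _ ⟨y, hy, rfl⟩
      exact hNs y (hsub hy).1
    · rintro _ ⟨y, hy, rfl⟩
      have h1 : |h y - i| < 1 := (hsub hy).2
      have h2 : |h x - i| < 1 := hx.2
      rw [hh' y (hsub hy).1] at h1
      rw [hh' x hx.1] at h2
      have h4 : |F (N y) / δ - F (N x) / δ| < 2 := by
        have := abs_sub_le (F (N y) / δ) (i : ℝ) (F (N x) / δ)
        rw [abs_sub_comm (i : ℝ)] at this
        linarith
      rw [div_sub_div_same, abs_div, abs_of_pos hδ0, div_lt_iff₀ hδ0] at h4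
      linarith

end Vale.Agent.P084.Strict
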