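import Vale.Agent.P084.Strict.Lens

/-!
An additive-on-triangles function has constant `G u + G (d - u)` on the lens.
-/

open Set Metric Module

namespace Vale.Agent.P084.Strict

/-- An even continuous function on a sphere has, for each tolerance, a band containing a
connected set with two antipodal points. -/
def BandProperty (V : Type*) [NormedAddCommGroup V] : Prop :=
  ∀ (F : V → ℝ), ContinuousOn F (sphere 0 1) → (∀ v ∈ sphere (0 : V) 1, F (-v) = F v) →
    ∀ ε : ℝ, 0 < ε → ∃ v C, IsPreconnected C ∧ v ∈ C ∧ -v ∈ C ∧ C ⊆ sphere 0 1 ∧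
      ∀ p ∈ C, |F p - F v| < ε

section Sphere

variable {V : Type*} [NormedAddCommGroup V] [NormedSpace ℝ V]

/-- Normalisation of a nearby point stays close. -/
theorem norm_normalise_sub_le {p m : V} (hp : ‖p‖ = 1) (hm : m ≠ 0) :
    ‖‖m‖⁻¹ • m - p‖ ≤ 2 * ‖m - p‖ := by
  have h1 : ‖‖m‖⁻¹ • m - m‖ = |1 - ‖m‖| := by
    rw [show ‖m‖⁻¹ • m - m = (‖m‖⁻¹ - 1) • m by module, norm_smul, Real.norm_eq_abs]
    conv_lhs => rw [← abs_norm, ← abs_mul]
    rw [abs_norm, sub_mul, inv_mul_cancel₀ (norm_ne_zero_iff.2 hm), one_mul]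
  have h2 : |1 - ‖m‖| ≤ ‖m - p‖ := by
    rw [← hp, abs_sub_comm]
    exact abs_norm_sub_norm_le m p
  linarith [norm_sub_le_norm_sub_add_norm_sub (‖m‖⁻¹ • m) m p]

/-- Close points of the sphere are joined by a small connected subset of it. -/
theorem exists_small_arc {p t : V} (hp : ‖p‖ = 1) (ht : ‖t‖ = 1) (h : ‖t - p‖ < 1 / 2) :
    ∃ A, IsPreconnected A ∧ p ∈ A ∧ t ∈ A ∧ A ⊆ sphere 0 1 ∧
      ∀ q ∈ A, ‖q - p‖ ≤ 2 * ‖t - p‖ := by
  set γ : ℝ → V := fun s => (1 - s) • p + s • t with hγ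
  have hb : ∀ s ∈ Icc (0 : ℝ) 1, ‖γ s - p‖ ≤ ‖t - p‖ := by
    intro s hs
    rw [show γ s - p = s • (t - p) by simp only [hγ]; module, norm_smul,
      Real.norm_of_nonneg hs.1]
    exact mul_le_of_le_one_left (norm_nonneg _) hs.2
  have h0 : ∀ s ∈ Icc (0 : ℝ) 1, γ s ≠ 0 := by
    intro s hs he
    have := hb s hs
    rw [he, zero_sub, norm_neg, hp] at this
    linarith
  refine ⟨(fun s => ‖γ s‖⁻¹ • γ s) '' Icc 0 1, isPreconnected_Icc.image _ ?_,
    ⟨0, ⟨le_rfl, zero_le_one⟩, ?_⟩, ⟨1, ⟨zero_le_one, le_rfl⟩, ?_⟩, ?_, ?_⟩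
  · have hc : Continuous γ := by rw [hγ]; fun_prop
    exact (hc.norm.continuousOn.inv₀ fun s hs => norm_ne_zero_iff.2 (h0 s hs)).smul hc.continuousOn
  · simp [hγ, hp]
  · simp [hγ, ht]
  · rintro _ ⟨s, hs, rfl⟩
    rw [mem_sphere_zero_iff_norm, norm_smul, norm_inv, norm_norm,
      inv_mul_cancel₀ (norm_ne_zero_iff.2 (h0 s hs))]
  · rintro _ ⟨s, hs, rfl⟩
    exact (norm_normalise_sub_le hp (h0 s hs)).trans (by linarith [hb s hs])

end Sphere

variable {E : Type*} [NormedAddCommGroup E] [NormedSpace ℝ E]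

/-- Constancy on the lens, from a continuous symmetric parametrisation by a sphere. -/
theorem sum_const_of_param {V : Type*} [NormedAddCommGroup V] [NormedSpace ℝ V]
    [FiniteDimensional ℝ V] (hrank : 1 < Module.rank ℝ V) (hband : BandProperty V)
    {G : E → ℝ} (hGc : Continuous G)
    (htri : ∀ a b : E, ‖a‖ = 1 → ‖b‖ = 1 → ‖a - b‖ = 1 → G (a - b) = G a - G b)
    {d : E} (hd1 : ‖d‖ < 1) {Φ : V → E} (hΦc : ContinuousOn Φ (sphere 0 1))
    (hΦ : ∀ v ∈ sphere (0 : V) 1, Φ v ∈ Lens d)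
    (hodd : ∀ v ∈ sphere (0 : V) 1, Φ (-v) = d - Φ v) :
    ∀ v ∈ sphere (0 : V) 1, ∀ w ∈ sphere (0 : V) 1,
      G (Φ v) + G (d - Φ v) = G (Φ w) + G (d - Φ w) := by
  set F : V → ℝ := fun v => G (Φ v) + G (d - Φ v) with hF
  have hneg : ∀ v ∈ sphere (0 : V) 1, -v ∈ sphere (0 : V) 1 := fun v hv => by
    rw [mem_sphere_zero_iff_norm, norm_neg, ← mem_sphere_zero_iff_norm]; exact hv
  have hFc : ContinuousOn F (sphere 0 1) :=
    (hGc.comp_continuousOn hΦc).add (hGc.comp_continuousOn (continuousOn_const.sub hΦc))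
  have hFe : ∀ v ∈ sphere (0 : V) 1, F (-v) = F v := fun v hv => by
    simp only [hF, hodd v hv, sub_sub_cancel]
    ring
  obtain ⟨δ, hδ, hδΦ⟩ := Metric.uniformContinuousOn_iff.1
    ((isCompact_sphere (0 : V) 1).uniformContinuousOn_of_continuous hΦc) (1 - ‖d‖) (by linarith)
  set ρ := min (δ / 2) (1 / 2) with hρ
  have hρ0 : 0 < ρ := lt_min (by linarith) (by norm_num)
  suffices H : ∀ ε : ℝ, 0 < ε → ∃ c, ∀ p ∈ sphere (0 : V) 1, |F p - c| < ε by
    intro v hv w hw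
    refine eq_of_forall_dist_le fun ε hε => ?_
    obtain ⟨c, hc⟩ := H (ε / 2) (by linarith)
    have h1 := abs_lt.1 (hc v hv)
    have h2 := abs_lt.1 (hc w hw)
    rw [Real.dist_eq, abs_le]
    change -ε ≤ F v - F w ∧ F v - F w ≤ ε
    constructor <;> linarith
  intro ε hε
  obtain ⟨v, C, hCc, hvC, hnvC, hCS, hCb⟩ := hband F hFc hFe ε hε
  refine ⟨F v, ?_⟩
  set B := {p ∈ sphere (0 : V) 1 | |F p - F v| < ε} with hB
  set K := connectedComponentIn B v with hK
  have hCB : C ⊆ B := fun p hp => ⟨hCS hp, hCb p hp⟩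
  have hKB : K ⊆ B := connectedComponentIn_subset B v
  have hvK : v ∈ K := mem_connectedComponentIn (hCB hvC)
  have hKc : IsPreconnected K := isPreconnected_connectedComponentIn
  have hsym : ∀ p ∈ K, -p ∈ K := by
    intro p hp
    have hsub : Neg.neg '' K ⊆ K := by
      refine (hKc.image _ continuous_neg.continuousOn).subset_connectedComponentIn
        ⟨-v, hCc.subset_connectedComponentIn hvC hCB hnvC, neg_neg v⟩ ?_
      rintro _ ⟨q, hq, rfl⟩
      exact ⟨hneg q (hKB hq).1, by rw [hFe q (hKB hq).1]; exact (hKB hq).2⟩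
    exact hsub ⟨p, hp, rfl⟩
  have hnear : ∀ p ∈ K, ∀ t ∈ sphere (0 : V) 1, dist t p < δ → t ∈ B := by
    intro p hp t ht htp
    have hp1 := (hKB hp).1
    have hclose : ‖Φ t - Φ p‖ < 1 - ‖d‖ := by
      rw [← dist_eq_norm]; exact hδΦ t ht p hp1 htp
    have hfar : 1 ≤ ‖Φ t - Φ (-p)‖ := by
      have h1 : 2 - ‖d‖ ≤ ‖Φ p - Φ (-p)‖ := by
        rw [hodd p hp1, show Φ p - (d - Φ p) = (2 : ℝ) • Φ p - d by module]
        have := norm_sub_norm_le ((2 : ℝ) • Φ p) d
        rw [norm_smul, Real.norm_of_nonneg zero_le_two, (hΦ p hp1).1] at this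
        linarith
      have := norm_sub_le_norm_sub_add_norm_sub (Φ p) (Φ t) (Φ (-p))
      rw [norm_sub_rev (Φ p) (Φ t)] at this
      linarith
    obtain ⟨s, hs, hs1⟩ := hKc.intermediate_value hp (hsym p hp)
      (f := fun q => ‖Φ t - Φ q‖)
      ((continuousOn_const.sub (hΦc.mono fun q hq => (hKB hq).1)).norm)
      (show (1 : ℝ) ∈ Icc ‖Φ t - Φ p‖ ‖Φ t - Φ (-p)‖ from
        ⟨by linarith [norm_nonneg d], hfar⟩)
    have he : F t = F s := unit_step htri (hΦ t ht) (hΦ s (hKB hs).1) hs1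
    refine ⟨ht, ?_⟩
    rw [he]
    exact (hKB hs).2
  have hstep : ∀ p ∈ K, ∀ t ∈ sphere (0 : V) 1, dist t p < ρ → t ∈ K := by
    intro p hp t ht htp
    have hp1 : ‖p‖ = 1 := mem_sphere_zero_iff_norm.1 (hKB hp).1
    rw [dist_eq_norm] at htp
    obtain ⟨A, hAc, hpA, htA, hAS, hAd⟩ :=
      exists_small_arc hp1 (mem_sphere_zero_iff_norm.1 ht) (htp.trans_le (min_le_right _ _))
    have hAB : A ⊆ B := fun q hq => hnear p hp q (hAS hq) (by
      rw [dist_eq_norm]
      linarith [hAd q hq, min_le_left (δ / 2) (1 / 2)])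
    have := hAc.subset_connectedComponentIn hpA hAB htA
    rwa [← connectedComponentIn_eq hp] at this
  intro p hp
  have hsub := (isPreconnected_sphere hrank (0 : V) 1).subset_left_of_subset_union
    (u := ⋃ q ∈ K, ball q (ρ / 2)) (v := ⋃ q ∈ sphere (0 : V) 1 \ K, ball q (ρ / 2))
    (isOpen_biUnion fun _ _ => isOpen_ball) (isOpen_biUnion fun _ _ => isOpen_ball) ?_ ?_
    ⟨v, (hKB hvK).1, mem_biUnion hvK (mem_ball_self (by linarith))⟩
  · obtain ⟨q, hq, hpq⟩ := mem_iUnion₂.1 (hsub hp)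
    exact (hKB (hstep q hq p hp (by rw [mem_ball] at hpq; linarith))).2
  · rw [Set.disjoint_left]
    intro q hq hq'
    obtain ⟨a, ha, haq⟩ := mem_iUnion₂.1 hq
    obtain ⟨b, hb, hbq⟩ := mem_iUnion₂.1 hq'
    rw [mem_ball] at haq hbq
    exact hb.2 (hstep a ha b hb.1 (by linarith [dist_triangle_left b a q]))
  · intro q hq
    by_cases h : q ∈ K
    · exact Or.inl (mem_biUnion h (mem_ball_self (by linarith)))
    · exact Or.inr (mem_biUnion (show q ∈ sphere (0 : V) 1 \ K from ⟨hq, h⟩)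
        (mem_ball_self (by linarith)))

variable [FiniteDimensional ℝ E] [StrictConvexSpace ℝ E]

/-- `G u + G (d - u)` is constant on the lens, in dimension at least four. -/
theorem sum_const (hdim : 4 ≤ finrank ℝ E)
    (hband : ∀ W : Submodule ℝ E, 3 ≤ finrank ℝ W → BandProperty W)
    {G : E → ℝ} (hGc : Continuous G)
    (htri : ∀ a b : E, ‖a‖ = 1 → ‖b‖ = 1 → ‖a - b‖ = 1 → G (a - b) = G a - G b)
    {d : E} (hd : d ≠ 0) (hd1 : ‖d‖ < 1) {u u' : E} (hu : u ∈ Lens d) (hu' : u' ∈ Lens d) :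
    G u + G (d - u) = G u' + G (d - u') := by
  obtain ⟨g, hg⟩ := SeparatingDual.exists_eq_one (R := ℝ) hd
  set W : Submodule ℝ E := LinearMap.ker (g : E →ₗ[ℝ] ℝ) with hW
  have hW3 : 3 ≤ finrank ℝ W := by
    have h1 := LinearMap.finrank_range_add_finrank_ker (g : E →ₗ[ℝ] ℝ)
    have h2 := Submodule.finrank_le (LinearMap.range (g : E →ₗ[ℝ] ℝ))
    rw [Module.finrank_self] at h2
    rw [← hW] at h1
    omega
  have hproj : ∀ z : E, z - g z • d ∈ W := fun z => by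
    rw [hW, LinearMap.mem_ker]
    simp [hg]
  set P : E → W := fun z => ⟨z - g z • d, hproj z⟩ with hP
  have hP0 : ∀ z ∈ Lens d, P z ≠ 0 := fun z hz h => by
    have h' : z - g z • d = 0 := congrArg Subtype.val h
    exact not_smul_of_lens hd1 hz (g z) (sub_eq_zero.1 h')
  have hPc : Continuous P := by rw [hP]; fun_prop
  have hcpt : IsCompact (Lens d) := by
    refine (isCompact_sphere (0 : E) 1).of_isClosed_subset ?_ fun z hz => by simpa using hz.1
    exact (isClosed_eq continuous_norm continuous_const).inter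
      (isClosed_eq (continuous_const.sub continuous_id).norm continuous_const)
  have : CompactSpace (Lens d) := isCompact_iff_compactSpace.1 hcpt
  set ψ : Lens d → sphere (0 : W) 1 := fun z => ⟨‖P z.1‖⁻¹ • P z.1, by
    rw [mem_sphere_zero_iff_norm, norm_smul, norm_inv, norm_norm,
      inv_mul_cancel₀ (norm_ne_zero_iff.2 (hP0 _ z.2))]⟩ with hψ
  have hinj : Function.Injective ψ := by
    intro z z' h
    have h1 : ‖P z.1‖⁻¹ • P z.1 = ‖P z'.1‖⁻¹ • P z'.1 := congrArg Subtype.val h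
    have hs : 0 < ‖P z'.1‖ / ‖P z.1‖ :=
      div_pos (norm_pos_iff.2 (hP0 _ z'.2)) (norm_pos_iff.2 (hP0 _ z.2))
    have h2 : P z'.1 = (‖P z'.1‖ / ‖P z.1‖) • P z.1 := by
      rw [div_eq_mul_inv, mul_smul, h1, smul_smul,
        mul_inv_cancel₀ (norm_ne_zero_iff.2 (hP0 _ z'.2)), one_smul]
    have h3 : z'.1 - g z'.1 • d = (‖P z'.1‖ / ‖P z.1‖) • (z.1 - g z.1 • d) :=
      congrArg Subtype.val h2
    have e1 : z.1 = (z.1 - g z.1 • d) + g z.1 • d := by module
    have e2 : z'.1 = (‖P z'.1‖ / ‖P z.1‖) • (z.1 - g z.1 • d) + g z'.1 • d := by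
      rw [← h3]; module
    obtain ⟨hs1, hb⟩ := lens_inj hd hd1 hs (e1 ▸ z.2) (e2 ▸ z'.2)
    refine Subtype.ext ?_
    rw [e2, hs1, one_smul, hb, ← e1]
  have hsurj : Function.Surjective ψ := by
    rintro ⟨w, hw⟩
    have hgw : g (w : E) = 0 := LinearMap.mem_ker.1 w.2
    have hw0 : ∀ c : ℝ, (w : E) ≠ c • d := fun c h => by
      rw [h, map_smul, hg, smul_eq_mul, mul_one] at hgw
      have : w = 0 := Subtype.ext (by rw [h, hgw, zero_smul]; rfl)
      rw [this] at hw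
      simp at hw
    obtain ⟨a, s, hs, hz⟩ := exists_lens hd hd1 hw0
    refine ⟨⟨_, hz⟩, Subtype.ext ?_⟩
    have hPz : P (s • (w : E) + a • d) = s • w := Subtype.ext (by simp [hP, hgw, hg])
    change ‖P _‖⁻¹ • P _ = w
    rw [hPz, norm_smul, mem_sphere_zero_iff_norm.1 hw, mul_one, Real.norm_of_nonneg hs.le,
      smul_smul, inv_mul_cancel₀ hs.ne', one_smul]
  have hψc : Continuous ψ := by
    refine Continuous.subtype_mk ?_ _
    have h := hPc.comp continuous_subtype_val (X := Lens d)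
    exact (h.norm.inv₀ fun z => norm_ne_zero_iff.2 (hP0 _ z.2)).smul h
  let e := Continuous.homeoOfEquivCompactToT2 (f := Equiv.ofBijective ψ ⟨hinj, hsurj⟩) hψc
  classical
  set Φ : W → E := fun v => if h : v ∈ sphere (0 : W) 1 then (e.symm ⟨v, h⟩).1 else 0 with hΦ
  have hΦe : ∀ v (h : v ∈ sphere (0 : W) 1), Φ v = (e.symm ⟨v, h⟩).1 := fun v h => by
    simp only [hΦ]
    rw [dif_pos h]
  have hΦψ : ∀ z : Lens d, Φ (ψ z).1 = z.1 := fun z => by
    rw [hΦe _ (ψ z).2, show (⟨(ψ z).1, (ψ z).2⟩ : sphere (0 : W) 1) = e z from rfl,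
      e.symm_apply_apply]
  have hΦc : ContinuousOn Φ (sphere (0 : W) 1) := by
    rw [continuousOn_iff_continuous_restrict]
    exact (continuous_subtype_val.comp e.symm.continuous).congr fun v => (hΦe v.1 v.2).symm
  have hodd : ∀ v ∈ sphere (0 : W) 1, Φ (-v) = d - Φ v := by
    intro v hv
    obtain ⟨z, hz⟩ := hsurj ⟨v, hv⟩
    have hv' : v = (ψ z).1 := congrArg Subtype.val hz.symm
    have hneg : -v = (ψ ⟨_, lens_compl z.2⟩).1 := by
      have hPn : P (d - z.1) = -P z.1 := Subtype.ext (by simp [hP, hg]; module)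
      rw [hv']
      simp only [hψ]
      rw [hPn, norm_neg, smul_neg]
    rw [hneg, hΦψ, hv', hΦψ]
  have hrank : 1 < Module.rank ℝ W := by
    rw [← Module.finrank_eq_rank]
    exact_mod_cast (by omega : 1 < finrank ℝ W)
  have h := sum_const_of_param hrank (hband W hW3) hGc htri hd1 hΦc
    (fun v hv => by rw [hΦe v hv]; exact (e.symm _).2) hodd
    _ (ψ ⟨u, hu⟩).2 _ (ψ ⟨u', hu'⟩).2
  rwa [hΦψ, hΦψ] at h

end Vale.Agent.P084.Strict
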