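import Vale.Agent.P084.Strict.Diff

/-!
Linearity of a homogeneous odd Lipschitz function with constant lens sums.
-/

open Set Metric MeasureTheory Filter Topology Module

namespace Vale.Agent.P084.Strict

variable {E : Type*} [NormedAddCommGroup E] [NormedSpace ℝ E] [FiniteDimensional ℝ E]
  [MeasurableSpace E] [BorelSpace E]

theorem ae_good (μ : Measure E) [μ.IsAddHaarMeasure] {G : E → ℝ} {K : NNReal}
    (hG : LipschitzWith K G) :
    ∀ᵐ x ∂μ, DifferentiableAt ℝ (fun y : E => ‖y‖) x ∧ DifferentiableAt ℝ G x := by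
  filter_upwards [(lipschitzWith_one_norm (E := E)).ae_differentiableAt (μ := μ),
    hG.ae_differentiableAt (μ := μ)] with x h1 h2
  exact ⟨h1, h2⟩

omit [FiniteDimensional ℝ E] [MeasurableSpace E] [BorelSpace E] in
/-- A point of differentiability gives a good unit vector with the same derivatives. -/
theorem exists_goodAt {G : E → ℝ} (hG : ∀ (t : ℝ) x, 0 ≤ t → G (t • x) = t * G x) {x : E}
    (hx : x ≠ 0) (h1 : DifferentiableAt ℝ (fun y : E => ‖y‖) x) (h2 : DifferentiableAt ℝ G x) :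
    GoodAt G (‖x‖⁻¹ • x) (fderiv ℝ (fun y : E => ‖y‖) x) (fderiv ℝ G x) := by
  have hn : 0 < ‖x‖ := norm_pos_iff.2 hx
  refine ⟨?_, deriv_scale norm_homog hn h1.hasFDerivAt, deriv_scale hG hn h2.hasFDerivAt⟩
  rw [norm_smul, norm_inv, norm_norm, inv_mul_cancel₀ hn.ne']

/-- The gradients of the norm at good points separate the vectors. -/
theorem exists_psi_ne {G : E → ℝ} (hG : ∀ (t : ℝ) x, 0 ≤ t → G (t • x) = t * G x) {K : NNReal}
    (hGl : LipschitzWith K G) {e : E} (he : e ≠ 0) :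
    ∃ u ψ P, GoodAt G u ψ P ∧ ψ e ≠ 0 := by
  by_contra hne
  push Not at hne
  have : Nontrivial E := ⟨⟨e, 0, he⟩⟩
  set μ : Measure E := Measure.addHaar
  have h := eq_along μ (q := fun y : E => ‖y‖) (U := univ) (a := e) (w := e)
    lipschitzWith_one_norm.lipschitzOnWith (Eventually.of_forall fun _ _ _ => mem_univ _)
    isOpen_univ ?_
  · rw [← two_smul ℝ e, norm_smul, Real.norm_of_nonneg zero_le_two] at h
    linarith [norm_pos_iff.2 he]
  filter_upwards [ae_good μ hGl, μ.ae_ne 0] with x hx hx0 _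
  have hz := hne _ _ _ (exists_goodAt hG hx0 hx.1 hx.2)
  have h1 : HasDerivAt (fun s : ℝ => x + s • e) e 0 := by
    simpa using ((hasDerivAt_id (0 : ℝ)).smul_const e).const_add x
  have h2 := HasFDerivAt.comp_hasDerivAt (l := fun y : E => ‖y‖) (0 : ℝ)
    (by simpa using hx.1.hasFDerivAt) h1
  rwa [hz] at h2

omit [MeasurableSpace E] [BorelSpace E] in
theorem exists_ker_pair (hdim : 3 ≤ finrank ℝ E) (a b : E →L[ℝ] ℝ) :
    ∃ e : E, e ≠ 0 ∧ a e = 0 ∧ b e = 0 := by
  set T : E →ₗ[ℝ] ℝ × ℝ := (a : E →ₗ[ℝ] ℝ).prod (b : E →ₗ[ℝ] ℝ) with hT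
  have h1 := LinearMap.finrank_range_add_finrank_ker T
  have h2 := Submodule.finrank_le (LinearMap.range T)
  rw [Module.finrank_prod, Module.finrank_self] at h2
  obtain ⟨e, he, he0⟩ := Submodule.exists_mem_ne_zero_of_ne_bot (p := LinearMap.ker T) fun h => by
    rw [h, finrank_bot] at h1
    omega
  exact ⟨e, he0, congrArg Prod.fst (LinearMap.mem_ker.1 he),
    congrArg Prod.snd (LinearMap.mem_ker.1 he)⟩

omit [MeasurableSpace E] [BorelSpace E] in
/-- Away from the origin the quotient of a Lipschitz function by the norm is Lipschitz. -/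
theorem lipschitzOn_quot {h : E → ℝ} {K : NNReal} (hl : LipschitzWith K h) (h0 : h 0 = 0)
    {r : ℝ} (hr : 0 < r) :
    LipschitzOnWith (2 * K / r.toNNReal) (fun y => h y / ‖y‖) {y | r < ‖y‖} := by
  refine LipschitzOnWith.of_dist_le_mul fun a ha b hb => ?_
  have hna : 0 < ‖a‖ := hr.trans ha
  have hnb : 0 < ‖b‖ := hr.trans hb
  have e1 : |h a - h b| ≤ K * ‖a - b‖ := by
    simpa [Real.dist_eq, dist_eq_norm] using hl.dist_le_mul a b
  have e2 : |h b| ≤ K * ‖b‖ := by
    simpa [Real.dist_eq, dist_eq_norm, h0] using hl.dist_le_mul b 0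
  have e3 : |‖b‖ - ‖a‖| ≤ ‖a - b‖ := by rw [abs_sub_comm]; exact abs_norm_sub_norm_le a b
  have hid : h a / ‖a‖ - h b / ‖b‖
      = (h a - h b) / ‖a‖ + h b / ‖b‖ * ((‖b‖ - ‖a‖) / ‖a‖) := by
    field_simp
    ring
  rw [Real.dist_eq, hid, dist_eq_norm]
  refine (abs_add_le _ _).trans ?_
  rw [abs_mul, abs_div, abs_div, abs_div, abs_norm, abs_norm]
  have e4 : |h b| / ‖b‖ ≤ K := (div_le_iff₀ hnb).2 e2
  have e5 : |h b| / ‖b‖ * (|‖b‖ - ‖a‖| / ‖a‖) ≤ K * ‖a - b‖ / ‖a‖ := by
    rw [← mul_div_assoc]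
    exact div_le_div_of_nonneg_right (mul_le_mul e4 e3 (abs_nonneg _) K.2) hna.le
  have e6 : |h a - h b| / ‖a‖ ≤ K * ‖a - b‖ / ‖a‖ := div_le_div_of_nonneg_right e1 hna.le
  have e7 : (K : ℝ) * ‖a - b‖ / ‖a‖ ≤ K * ‖a - b‖ / r :=
    div_le_div_of_nonneg_left (by positivity) hr ha.le
  push_cast [Real.coe_toNNReal _ hr.le]
  rw [show 2 * (K : ℝ) / r * ‖a - b‖ = K * ‖a - b‖ / r + K * ‖a - b‖ / r by ring]
  linarith

/-- The rigidity step. -/
theorem linear_of_sum (hdim : 4 ≤ finrank ℝ E) {G : E → ℝ} {K : NNReal}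
    (hGl : LipschitzWith K G) (hG : ∀ (t : ℝ) x, 0 ≤ t → G (t • x) = t * G x)
    (hodd : ∀ x, G (-x) = -G x)
    (hsum : ∀ d : E, d ≠ 0 → ‖d‖ < 1 → ∀ u ∈ Lens d, ∀ u' ∈ Lens d,
      G u + G (d - u) = G u' + G (d - u')) :
    ∃ L : E →L[ℝ] ℝ, ∀ x, G x = L x := by
  have : Nontrivial E := Module.nontrivial_of_finrank_pos (R := ℝ) (by omega)
  obtain ⟨e0, he0⟩ := exists_ne (0 : E)
  obtain ⟨u1, ψ1, P1, h1, n1⟩ := exists_psi_ne hG hGl he0
  obtain ⟨e1, he1, hk1, -⟩ := exists_ker_pair (by omega) ψ1 ψ1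
  obtain ⟨u2, ψ2, P2, h2, n2⟩ := exists_psi_ne hG hGl he1
  obtain ⟨e2, he2, hk21, hk22⟩ := exists_ker_pair (by omega) ψ1 ψ2
  obtain ⟨u3, ψ3, P3, h3, n3⟩ := exists_psi_ne hG hGl he2
  have hind : ∀ a b c : ℝ, (∀ x, a * ψ1 x + b * ψ2 x + c * ψ3 x = 0) → a = 0 ∧ b = 0 ∧ c = 0 := by
    intro a b c h
    have hc : c = 0 := by simpa [hk21, hk22, n3] using h e2
    have hb : b = 0 := by simpa [hk1, hc, n2] using h e1
    exact ⟨by simpa [hb, hc, n1] using h e0, hb, hc⟩
  obtain ⟨L, hL⟩ := exists_common hodd hsum h1 h2 h3 hind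
  refine ⟨L, fun x => ?_⟩
  set h : E → ℝ := fun y => G y - L y with hh
  have hhl : LipschitzWith (K + ‖L‖₊) h := hGl.sub L.lipschitz
  have hG0 : G 0 = 0 := by simpa using hG 0 0 le_rfl
  have hh0 : h 0 = 0 := by simp [hh, hG0]
  have key : ∀ a w : E, (∀ s ∈ Icc (0 : ℝ) 1, a + s • w ≠ 0) →
      h (a + w) / ‖a + w‖ = h a / ‖a‖ := by
    intro a w hseg
    obtain ⟨s₀, hs₀, hmin⟩ := isCompact_Icc.exists_isMinOn (nonempty_Icc.2 zero_le_one)
      (show ContinuousOn (fun s : ℝ => ‖a + s • w‖) (Icc 0 1) by fun_prop)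
    set r := ‖a + s₀ • w‖ / 2 with hr
    have hr0 : 0 < r := by
      have := norm_pos_iff.2 (hseg s₀ hs₀)
      positivity
    set μ : Measure E := Measure.addHaar
    refine eq_along μ (lipschitzOn_quot hhl hh0 hr0) ?_
      (isOpen_lt continuous_const continuous_norm) ?_
    · filter_upwards [ball_mem_nhds a hr0] with y hy s hs
      rw [mem_ball, dist_eq_norm] at hy
      have h1 := norm_sub_norm_le (a + s • w) (y + s • w)
      rw [add_sub_add_right_eq_sub, norm_sub_rev] at h1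
      have h2 : ‖a + s₀ • w‖ ≤ ‖a + s • w‖ := hmin hs
      change r < ‖y + s • w‖
      linarith
    · filter_upwards [ae_good μ hGl] with y hy hyU
      have hy0 : y ≠ 0 := norm_ne_zero_iff.1 (ne_of_gt (hr0.trans hyU))
      have hn : ‖y‖ ≠ 0 := norm_ne_zero_iff.2 hy0
      obtain ⟨k, hk⟩ := hL _ _ _ (exists_goodAt hG hy0 hy.1 hy.2)
      have hky : h y = k * ‖y‖ := by
        have := hk y
        rw [deriv_apply_self hG hy.2.hasFDerivAt,
          deriv_apply_self norm_homog hy.1.hasFDerivAt] at this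
        simp only [hh]
        linarith
      have hl : HasDerivAt (fun s : ℝ => y + s • w) w 0 := by
        simpa using ((hasDerivAt_id (0 : ℝ)).smul_const w).const_add y
      have d1 := HasFDerivAt.comp_hasDerivAt (l := h) (0 : ℝ)
        (by simpa using hy.2.hasFDerivAt.fun_sub L.hasFDerivAt) hl
      have d2 := HasFDerivAt.comp_hasDerivAt (l := fun z : E => ‖z‖) (0 : ℝ)
        (by simpa using hy.1.hasFDerivAt) hl
      have d3 := d1.div d2 (by simpa using hn)
      have e : ((fderiv ℝ G y - L) w * ((fun z : E => ‖z‖) ∘ fun s : ℝ => y + s • w) 0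
          - (h ∘ fun s : ℝ => y + s • w) 0 * (fderiv ℝ (fun z : E => ‖z‖) y) w)
          / ((fun z : E => ‖z‖) ∘ fun s : ℝ => y + s • w) 0 ^ 2 = 0 := by
        simp only [Function.comp_apply, zero_smul, add_zero, sub_apply, hky, hk w]
        ring
      rw [e] at d3
      exact d3
  have hzero : ∀ a : E, a ≠ 0 → h a = 0 := by
    intro a ha
    obtain ⟨w, hw⟩ : ∃ w : E, ∀ c : ℝ, w ≠ c • a := by
      obtain ⟨e, he, -⟩ : ∃ e : E, e ∉ Submodule.span ℝ {a} ∧ True := by
        by_contra hne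
        push Not at hne
        have htop : Submodule.span ℝ {a} = ⊤ := eq_top_iff.2 fun e _ => by
          by_contra h'
          exact hne e h'
        have := finrank_span_singleton (K := ℝ) ha
        rw [htop, finrank_top] at this
        omega
      exact ⟨e, fun c hc => he (hc ▸ Submodule.smul_mem _ c (Submodule.mem_span_singleton_self a))⟩
    have seg : ∀ b : E, (∀ c : ℝ, w ≠ c • b) → b ≠ 0 → h w / ‖w‖ = h b / ‖b‖ := by
      intro b hb hb0
      have := key b (w - b) fun s hs he => by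
        rcases eq_or_ne s 0 with rfl | hs0
        · exact hb0 (by simpa using he)
        · refine hb ((s - 1) / s) ?_
          have h' : s • w = (s - 1) • b := by
            rw [← sub_eq_zero, ← he]
            module
          rw [div_eq_inv_mul, mul_smul, ← h', smul_smul, inv_mul_cancel₀ hs0, one_smul]
      rwa [add_sub_cancel] at this
    have e1 := seg a hw ha
    have e2 := seg (-a) (fun c hc => hw (-c) (by rw [hc, smul_neg, neg_smul])) (neg_ne_zero.2 ha)
    rw [e1, norm_neg] at e2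
    have e3 : h (-a) = -h a := by simp [hh, hodd]; ring
    rw [e3, div_left_inj' (norm_ne_zero_iff.2 ha)] at e2
    linarith
  rcases eq_or_ne x 0 with rfl | hx
  · simp [hG0]
  · exact sub_eq_zero.1 (hzero x hx)

end Vale.Agent.P084.Strict
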