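import Mathlib

/-!
The centre of an isometric reflection is unique, and its consequence for equilateral
triangles on unit spheres.
-/

open Set Metric

namespace Vale.Agent.P084.Strict

/-- The distances from a reflection centre are preserved by every isometry of the space. -/
theorem centre_invariant {Ω : Type*} [PseudoMetricSpace Ω] {D : ℝ} (hD : ∀ a b : Ω, dist a b ≤ D)
    (ι : Ω ≃ᵢ Ω) (o : Ω → ℝ) (hinv : ∀ a, ι (ι a) = a) (ho : ∀ a, 2 * o a = dist a (ι a))
    (hadm : ∀ a b, dist a b ≤ o a + o b) (g : Ω ≃ᵢ Ω) (a : Ω) : o (g a) = o a := by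
  have hsym : ∀ a, o (ι a) = o a := fun a => by
    have h1 := ho (ι a)
    rw [hinv, dist_comm, ← ho a] at h1
    linarith
  have key : ∀ (n : ℕ) (g : Ω ≃ᵢ Ω) (a : Ω), |o (g a) - o a| ≤ D / 2 ^ n := by
    intro n
    induction n with
    | zero =>
      intro g a
      have h1 := ho (g a)
      have h2 := ho a
      have h3 := hD (g a) (ι (g a))
      have h4 := hD a (ι a)
      have h5 : 0 ≤ o (g a) := by linarith [dist_nonneg (x := g a) (y := ι (g a))]
      have h6 : 0 ≤ o a := by linarith [dist_nonneg (x := a) (y := ι a)]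
      rw [pow_zero, div_one, abs_le]
      constructor <;> linarith [dist_nonneg (x := a) (y := ι a)]
    | succ n ih =>
      intro g a
      have hdown : ∀ a, o a - o (g a) ≤ D / 2 ^ (n + 1) := by
        intro a
        have h1 : dist a (ι a) ≤ o (g a) + o (g (ι a)) := by
          rw [← g.dist_eq a (ι a)]
          exact hadm _ _
        rw [← ho a] at h1
        have h2 := ih ((g.symm.trans ι).trans g) (g a)
        simp only [IsometryEquiv.trans_apply, IsometryEquiv.symm_apply_apply] at h2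
        rw [abs_le] at h2
        rw [pow_succ, ← div_div]
        linarith [h2.2]
      have hup : o (g a) - o a ≤ D / 2 ^ (n + 1) := by
        set b := g.symm (ι (g a)) with hb
        have h1 : o (g a) + o (g b) = dist a b := by
          rw [← g.dist_eq a b, hb, IsometryEquiv.apply_symm_apply, hsym, ← ho]
          ring
        linarith [hadm a b, hdown b]
      rw [abs_le]
      exact ⟨by linarith [hdown a], hup⟩
  refine sub_eq_zero.1 (abs_nonpos_iff.1 ?_)
  refine ge_of_tendsto (f := fun n : ℕ => D / 2 ^ n) (x := Filter.atTop) ?_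
    (Filter.Eventually.of_forall fun n => key n g a)
  simpa [div_eq_mul_inv, ← inv_pow] using
    (tendsto_pow_atTop_nhds_zero_of_lt_one (r := (2 : ℝ)⁻¹) (by norm_num) (by norm_num)).const_mul D

/-- Two reflections with central points have the same displacement. -/
theorem centre_unique {Ω : Type*} [PseudoMetricSpace Ω] {D : ℝ} (hD : ∀ a b : Ω, dist a b ≤ D)
    (ι ι' : Ω ≃ᵢ Ω) (o o' : Ω → ℝ) (hinv : ∀ a, ι (ι a) = a) (ho : ∀ a, 2 * o a = dist a (ι a))
    (hadm : ∀ a b, dist a b ≤ o a + o b) (hinv' : ∀ a, ι' (ι' a) = a)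
    (ho' : ∀ a, 2 * o' a = dist a (ι' a)) (hadm' : ∀ a b, dist a b ≤ o' a + o' b) (a : Ω) :
    o a = o' a := by
  have h1 := centre_invariant hD ι o hinv ho hadm ι' a
  have h2 := centre_invariant hD ι' o' hinv' ho' hadm' ι a
  have h3 := hadm a (ι' a)
  have h4 := hadm' a (ι a)
  rw [← ho' a, h1] at h3
  rw [← ho a, h2] at h4
  linarith

variable {X : Type*} [NormedAddCommGroup X] [NormedSpace ℝ X]

/-- The points of the unit sphere at distance one from a given unit vector. -/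
def Apex (x : X) : Set X := {z | ‖z‖ = 1 ∧ ‖z - x‖ = 1}

theorem apex_flip {x z : X} (hz : z ∈ Apex x) : x - z ∈ Apex x := by
  refine ⟨by rw [norm_sub_rev]; exact hz.2, ?_⟩
  rw [sub_sub_cancel_left, norm_neg]
  exact hz.1

/-- The reflection of the apexes in the middle point of their base. -/
def apexRefl (x : X) : Apex x ≃ᵢ Apex x where
  toFun z := ⟨x - z.1, apex_flip z.2⟩
  invFun z := ⟨x - z.1, apex_flip z.2⟩
  left_inv z := by ext; simp
  right_inv z := by ext; simp
  isometry_toFun := Isometry.of_dist_eq fun a b => by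
    simp only [Subtype.dist_eq, dist_eq_norm, sub_sub_sub_cancel_left, norm_sub_rev]

theorem apex_adm (x : X) (a b : Apex x) :
    dist a b ≤ ‖(2 : ℝ) • a.1 - x‖ / 2 + ‖(2 : ℝ) • b.1 - x‖ / 2 := by
  have h := norm_sub_le ((2 : ℝ) • a.1 - x) ((2 : ℝ) • b.1 - x)
  rw [sub_sub_sub_cancel_right, ← smul_sub, norm_smul, Real.norm_of_nonneg zero_le_two] at h
  rw [Subtype.dist_eq, dist_eq_norm]
  linarith

variable {Y : Type*} [NormedAddCommGroup Y] [NormedSpace ℝ Y]

/-- A surjective isometry of spheres preserves the median of a unit equilateral triangle. -/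
theorem norm_median {F : X → Y} (hF : ∀ u, ‖u‖ = 1 → ‖F u‖ = 1)
    (hsurj : ∀ y, ‖y‖ = 1 → ∃ u, ‖u‖ = 1 ∧ F u = y)
    (hiso : ∀ u v, ‖u‖ = 1 → ‖v‖ = 1 → ‖F u - F v‖ = ‖u - v‖)
    {x z : X} (hx : ‖x‖ = 1) (hz : z ∈ Apex x) :
    ‖(2 : ℝ) • F z - F x‖ = ‖(2 : ℝ) • z - x‖ := by
  have hmem : ∀ a : Apex x, F a.1 ∈ Apex (F x) := fun a =>
    ⟨hF _ a.2.1, by rw [hiso _ _ a.2.1 hx]; exact a.2.2⟩
  have hbij : ∀ w : Apex (F x), ∃ a : Apex x, F a.1 = w.1 := fun w => by
    obtain ⟨u, hu, huw⟩ := hsurj w.1 w.2.1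
    exact ⟨⟨u, hu, by rw [← hiso _ _ hu hx, huw]; exact w.2.2⟩, huw⟩
  have hdist : Isometry (fun a : Apex x => (⟨F a.1, hmem a⟩ : Apex (F x))) :=
    Isometry.of_dist_eq fun a b => by
      simp only [Subtype.dist_eq, dist_eq_norm, hiso _ _ a.2.1 b.2.1]
  let e : Apex x ≃ᵢ Apex (F x) :=
    { Equiv.ofBijective _ ⟨hdist.injective, fun w => by
        obtain ⟨a, ha⟩ := hbij w
        exact ⟨a, Subtype.ext ha⟩⟩ with
      isometry_toFun := hdist }
  have hD : ∀ a b : Apex x, dist a b ≤ 2 := fun a b => by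
    rw [Subtype.dist_eq, dist_eq_norm]
    linarith [norm_sub_le a.1 b.1, a.2.1, b.2.1]
  have h := centre_unique hD (apexRefl x) ((e.trans (apexRefl (F x))).trans e.symm)
    (fun a => ‖(2 : ℝ) • a.1 - x‖ / 2) (fun a => ‖(2 : ℝ) • F a.1 - F x‖ / 2)
    (fun a => Subtype.ext (sub_sub_cancel x a.1))
    (fun a => by
      rw [Subtype.dist_eq, dist_eq_norm]
      change 2 * (‖(2 : ℝ) • a.1 - x‖ / 2) = ‖a.1 - (x - a.1)‖
      rw [two_smul, ← sub_add]
      ring_nf
      congr 1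
      abel)
    (apex_adm x)
    (fun a => by
      simp only [IsometryEquiv.trans_apply, IsometryEquiv.apply_symm_apply]
      exact e.injective (by
        rw [IsometryEquiv.apply_symm_apply]
        exact Subtype.ext (sub_sub_cancel (F x) (e a).1)))
    (fun a => by
      rw [← e.dist_eq a]
      simp only [IsometryEquiv.trans_apply, IsometryEquiv.apply_symm_apply]
      rw [Subtype.dist_eq, dist_eq_norm]
      change 2 * (‖(2 : ℝ) • F a.1 - F x‖ / 2) = ‖F a.1 - (F x - F a.1)‖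
      rw [two_smul, ← sub_add]
      ring_nf
      congr 1
      abel)
    (fun a b => by
      rw [← e.dist_eq a b]
      exact apex_adm (F x) (e a) (e b))
    ⟨z, hz⟩
  simp only at h
  linarith

variable [StrictConvexSpace ℝ X]

/-- On a strictly convex sphere a surjective isometry is odd. -/
theorem odd_sphere {F : X → Y} (hF : ∀ u, ‖u‖ = 1 → ‖F u‖ = 1)
    (hsurj : ∀ y, ‖y‖ = 1 → ∃ u, ‖u‖ = 1 ∧ F u = y)
    (hiso : ∀ u v, ‖u‖ = 1 → ‖v‖ = 1 → ‖F u - F v‖ = ‖u - v‖)
    {x : X} (hx : ‖x‖ = 1) : F (-x) = -F x := by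
  obtain ⟨w, hw, hwx⟩ := hsurj (-F x) (by rw [norm_neg, hF x hx])
  have h : ‖w + -x‖ = ‖w‖ + ‖-x‖ := by
    rw [← sub_eq_add_neg, ← hiso w x hw hx, hwx, ← neg_add', norm_neg, ← two_smul ℝ (F x),
      norm_smul, hF x hx, norm_neg, hw, hx]
    norm_num
  have he := eq_of_norm_eq_of_norm_add_eq (by rw [norm_neg, hw, hx]) h
  rw [← he, hwx]

/-- On a strictly convex sphere a surjective isometry is additive on equilateral triangles. -/
theorem triangle_sphere {F : X → Y} (hF : ∀ u, ‖u‖ = 1 → ‖F u‖ = 1)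
    (hsurj : ∀ y, ‖y‖ = 1 → ∃ u, ‖u‖ = 1 ∧ F u = y)
    (hiso : ∀ u v, ‖u‖ = 1 → ‖v‖ = 1 → ‖F u - F v‖ = ‖u - v‖)
    {x z : X} (hx : ‖x‖ = 1) (hz : z ∈ Apex x) : F (x - z) = F x - F z := by
  have hFz : F z ∈ Apex (F x) := ⟨hF _ hz.1, by rw [hiso _ _ hz.1 hx]; exact hz.2⟩
  obtain ⟨w, hw, hwz⟩ := hsurj (F x - F z) (apex_flip hFz).1
  have hwA : w ∈ Apex x := by
    refine ⟨hw, ?_⟩
    rw [← hiso _ _ hw hx, hwz, sub_sub_cancel_left, norm_neg, hF _ hz.1]
  have h1 := norm_median hF hsurj hiso hx hwA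
  have h2 := norm_median hF hsurj hiso hx hz
  have h3 : ‖(2 : ℝ) • F w - F x‖ = ‖(2 : ℝ) • F z - F x‖ := by
    rw [hwz, ← norm_neg]
    congr 1
    module
  have h4 : ‖F w - F z‖ = ‖(2 : ℝ) • F z - F x‖ := by
    rw [hwz, ← norm_neg]
    congr 1
    module
  have heq : ‖(2 : ℝ) • w - x‖ = ‖x - (2 : ℝ) • z‖ := by
    rw [← h1, h3, h2, norm_sub_rev]
  have hsum : ‖((2 : ℝ) • w - x) + (x - (2 : ℝ) • z)‖
      = ‖(2 : ℝ) • w - x‖ + ‖x - (2 : ℝ) • z‖ := by
    rw [sub_add_sub_cancel, ← smul_sub, norm_smul, Real.norm_of_nonneg zero_le_two,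
      ← hiso _ _ hw hz.1, h4, h2, heq, norm_sub_rev x]
    ring
  have he := eq_of_norm_eq_of_norm_add_eq heq hsum
  have hwx : w = x - z := by
    refine smul_right_injective X (two_ne_zero (α := ℝ)) ?_
    change (2 : ℝ) • w = (2 : ℝ) • (x - z)
    rw [sub_eq_iff_eq_add] at he
    rw [he]
    module
  rw [← hwx, hwz]

end Vale.Agent.P084.Strict
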