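import Vale.Agent.P084.Reduction
import Vale.Agent.P084.Strict.Band
import Vale.Agent.P084.Strict.Centre
import Vale.Agent.P084.Strict.Shift
import Vale.Agent.P084.Strict.Rigid

/-!
A surjective isometry from the sphere of an infinite dimensional strictly convex space
extends linearly.
-/

open Set Metric Module

namespace Vale.Agent.P084.Strict

variable {X Y : Type*} [NormedAddCommGroup X] [NormedSpace ℝ X]
  [NormedAddCommGroup Y] [NormedSpace ℝ Y]

theorem strictConvex_submodule [StrictConvexSpace ℝ X] (E : Submodule ℝ X) :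
    StrictConvexSpace ℝ E :=
  StrictConvexSpace.of_norm_add fun a b ha hb hab => by
    have h : ‖(a : X) + b‖ = ‖(a : X)‖ + ‖(b : X)‖ := by
      rw [← Submodule.coe_add]
      simp only [Submodule.norm_coe, hab, ha, hb]
      norm_num
    have he := eq_of_norm_eq_of_norm_add_eq
      (show ‖(a : X)‖ = ‖(b : X)‖ from ha.trans hb.symm) h
    rw [Subtype.ext he]
    exact SameRay.refl b

theorem exists_submodule (hinf : ¬ FiniteDimensional ℝ X) (a b : X) :
    ∃ E : Submodule ℝ X, FiniteDimensional ℝ E ∧ 4 ≤ finrank ℝ E ∧ a ∈ E ∧ b ∈ E := by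
  obtain ⟨v, hv⟩ := (le_rank_iff_exists_linearIndependent).1
    ((Cardinal.natCast_le_aleph0 (n := 4)).trans (not_lt.1 fun h => hinf (rank_lt_aleph0_iff.1 h)))
  refine ⟨Submodule.span ℝ (insert a (insert b v)), ?_, ?_, Submodule.subset_span (by simp),
    Submodule.subset_span (by simp)⟩
  · have hfin : v.Finite := Cardinal.lt_aleph0_iff_set_finite.1 (hv.1 ▸ Cardinal.natCast_lt_aleph0)
    exact FiniteDimensional.span_of_finite ℝ ((hfin.insert b).insert a)
  · have hfin : v.Finite := Cardinal.lt_aleph0_iff_set_finite.1 (hv.1 ▸ Cardinal.natCast_lt_aleph0)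
    have := FiniteDimensional.span_of_finite ℝ ((hfin.insert b).insert a)
    have := FiniteDimensional.span_of_finite ℝ hfin
    refine le_trans ?_ (Submodule.finrank_mono (Submodule.span_mono
      (show v ⊆ insert a (insert b v) from fun x hx => by simp [hx])))
    rw [finrank, rank_span_set hv.2, hv.1, Cardinal.toNat_natCast]

/-- The homogeneous extension is additive. -/
theorem homExt_add [StrictConvexSpace ℝ X] (hinf : ¬ FiniteDimensional ℝ X)
    (f : sphere (0 : X) 1 → sphere (0 : Y) 1) (hf : Isometry f) (hs : Function.Surjective f)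
    (a b : X) : homExt f (a + b) = homExt f a + homExt f b ∧ homExt f (-a) = -homExt f a := by
  set F := homExt f with hF
  have hn : ∀ u, ‖u‖ = 1 → ‖F u‖ = 1 := fun u hu => by rw [hF, norm_homExt, hu]
  have hsurj : ∀ y, ‖y‖ = 1 → ∃ u, ‖u‖ = 1 ∧ F u = y := fun y hy => by
    obtain ⟨u, hu⟩ := hs ⟨y, mem_sphere_zero_iff_norm.2 hy⟩
    exact ⟨u, mem_sphere_zero_iff_norm.1 u.2, by rw [hF, homExt_sphere, hu]⟩
  have hiso : ∀ u v, ‖u‖ = 1 → ‖v‖ = 1 → ‖F u - F v‖ = ‖u - v‖ := fun u v hu hv => by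
    have h := hf.dist_eq ⟨u, mem_sphere_zero_iff_norm.2 hu⟩ ⟨v, mem_sphere_zero_iff_norm.2 hv⟩
    rw [Subtype.dist_eq, Subtype.dist_eq, dist_eq_norm, dist_eq_norm,
      ← homExt_sphere, ← homExt_sphere] at h
    exact h
  have hodd : ∀ x, F (-x) = -F x := fun x => by
    rcases eq_or_ne x 0 with rfl | hx
    · simp [hF, homExt_zero]
    obtain ⟨u, hu⟩ := exists_polar hx
    rw [hu, ← smul_neg, hF, homExt_smul f (norm_nonneg x), homExt_smul f (norm_nonneg x),
      ← hF, odd_sphere hn hsurj hiso (mem_sphere_zero_iff_norm.1 u.2), smul_neg]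
  refine ⟨?_, hodd a⟩
  refine (SeparatingDual.eq_iff_forall_dual_eq (R := ℝ)).2 fun φ => ?_
  obtain ⟨E, hE, hdim, ha, hb⟩ := exists_submodule hinf a b
  have := strictConvex_submodule E
  let : MeasurableSpace E := borel E
  have : BorelSpace E := ⟨rfl⟩
  set G : E → ℝ := fun x => φ (F (x : X)) with hG
  have hlip : LipschitzWith (‖φ‖₊ * (3 * 1)) G :=
    φ.lipschitz.comp ((homExt_lipschitz f hf).comp E.subtypeₗᵢ.lipschitz)
  have hGh : ∀ (t : ℝ) (x : E), 0 ≤ t → G (t • x) = t * G x := fun t x ht => by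
    simp only [hG, Submodule.coe_smul, hF, homExt_smul f ht, map_smul, smul_eq_mul]
  have hGo : ∀ x : E, G (-x) = -G x := fun x => by simp [hG, hodd]
  have htri : ∀ x y : E, ‖x‖ = 1 → ‖y‖ = 1 → ‖x - y‖ = 1 → G (x - y) = G x - G y := by
    intro x y hx hy hxy
    simp only [hG, Submodule.coe_sub]
    rw [triangle_sphere hn hsurj hiso (x := (x : X)) (z := (y : X)) hx
      ⟨hy, by rw [norm_sub_rev]; exact hxy⟩, map_sub]
  obtain ⟨L, hL⟩ := linear_of_sum hdim hlip hGh hGo fun d hd hd1 u hu u' hu' =>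
    sum_const hdim (fun W hW F hc he ε hε => exists_band hW hc he hε) hlip.continuous htri hd hd1 hu hu'
  have h := map_add L ⟨a, ha⟩ ⟨b, hb⟩
  rw [← hL, ← hL, ← hL] at h
  rw [map_add]
  exact h

/-- The linear extension in infinite dimension. -/
theorem exists_extension [StrictConvexSpace ℝ X] (hinf : ¬ FiniteDimensional ℝ X)
    (f : sphere (0 : X) 1 → sphere (0 : Y) 1) (hf : Isometry f) (hs : Function.Surjective f) :
    ∃ T : X ≃ₗᵢ[ℝ] Y, ∀ x : sphere (0 : X) 1, T (x : X) = (f x : Y) := by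
  have hsmul : ∀ (t : ℝ) (x : X), homExt f (t • x) = t • homExt f x := fun t x => by
    rcases le_total 0 t with ht | ht
    · exact homExt_smul f ht x
    · rw [← neg_neg (t • x), ← neg_smul, (homExt_add hinf f hf hs ((-t) • x) 0).2,
        homExt_smul f (neg_nonneg.2 ht), neg_smul, neg_neg]
  let T : X →ₗᵢ[ℝ] Y :=
    { toFun := homExt f
      map_add' := fun a b => (homExt_add hinf f hf hs a b).1
      map_smul' := hsmul
      norm_map' := norm_homExt f }
  refine ⟨LinearIsometryEquiv.ofSurjective T fun y => ?_, fun x => homExt_sphere f x⟩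
  rcases eq_or_ne y 0 with rfl | hy
  · exact ⟨0, map_zero T⟩
  obtain ⟨w, hw⟩ := exists_polar hy
  obtain ⟨u, rfl⟩ := hs w
  exact ⟨‖y‖ • (u : X), (homExt_smul_sphere f (norm_nonneg y) u).trans hw.symm⟩

end Vale.Agent.P084.Strict
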