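import Mathlib

/-!
A Lipschitz function whose derivative along a direction vanishes almost everywhere is
constant along segments in that direction.
-/

open Set Metric MeasureTheory Filter Topology

namespace Vale.Agent.P084.Strict

variable {E : Type*} [NormedAddCommGroup E] [NormedSpace ℝ E] [FiniteDimensional ℝ E]
  [MeasurableSpace E] [BorelSpace E] (μ : Measure E) [μ.IsAddHaarMeasure]

/-- Fubini: a property holding almost everywhere holds almost everywhere on almost every line. -/
theorem ae_line {p : E → Prop} (h : ∀ᵐ x ∂μ, p x) (w : E) :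
    ∀ᵐ x ∂μ, ∀ᵐ s : ℝ, p (x + s • w) := by
  obtain ⟨S, hpS, hSm, hS⟩ := exists_measurable_superset_of_null (ae_iff.1 h)
  have hSp : ∀ x ∉ S, p x := fun x hx => not_not.1 fun hn => hx (hpS hn)
  have hm : MeasurableSet ((fun q : E × ℝ => q.1 + q.2 • w) ⁻¹' S) :=
    (continuous_fst.add (continuous_snd.smul continuous_const)).measurable hSm
  have h0 : μ.prod volume ((fun q : E × ℝ => q.1 + q.2 • w) ⁻¹' S) = 0 := by
    rw [Measure.prod_apply_symm hm]
    have : ∀ s : ℝ, μ ((fun x => (x, s)) ⁻¹' ((fun q : E × ℝ => q.1 + q.2 • w) ⁻¹' S)) = 0 := by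
      intro s
      rw [show (fun x => (x, s)) ⁻¹' ((fun q : E × ℝ => q.1 + q.2 • w) ⁻¹' S)
          = (fun x => x + s • w) ⁻¹' S from rfl, measure_preimage_add_right, hS]
    simp [this]
  have h1 : ∀ᵐ q ∂μ.prod (volume : Measure ℝ), q.1 + q.2 • w ∉ S := by
    rw [ae_iff]
    simp only [not_not]
    exact h0
  filter_upwards [Measure.ae_ae_of_ae_prod h1] with x hx
  filter_upwards [hx] with s hs
  exact hSp _ hs

/-- Vanishing directional derivative almost everywhere gives equal values at the ends. -/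
theorem eq_along {q : E → ℝ} {U : Set E} {C : NNReal} (hq : LipschitzOnWith C q U) {a w : E}
    (hU : ∀ᶠ x in 𝓝 a, ∀ s ∈ Icc (0 : ℝ) 1, x + s • w ∈ U) (hU' : IsOpen U)
    (hd : ∀ᵐ x ∂μ, x ∈ U → HasDerivAt (fun s : ℝ => q (x + s • w)) 0 0) :
    q (a + w) = q a := by
  obtain ⟨V, hV, hVo, haV⟩ := _root_.eventually_nhds_iff.1 hU
  have hae : ∀ᵐ x ∂μ, x ∈ V → q (x + w) = q x := by
    filter_upwards [ae_line μ hd w] with x hx hxV
    set γ : ℝ → ℝ := fun s => q (x + s • w) with hγ
    have hmaps : MapsTo (fun s : ℝ => x + s • w) (uIcc 0 1) U := fun s hs => by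
      rw [uIcc_of_le zero_le_one] at hs
      exact hV x hxV s hs
    have hline : LipschitzWith ‖w‖₊ (fun s : ℝ => x + s • w) :=
      LipschitzWith.of_dist_le_mul fun s t => by
        rw [dist_eq_norm, dist_eq_norm, add_sub_add_left_eq_sub, ← sub_smul, norm_smul, mul_comm,
          coe_nnnorm]
    have hL : LipschitzOnWith (C * ‖w‖₊) γ (uIcc 0 1) := hq.comp hline.lipschitzOnWith hmaps
    have h0 : ∀ᵐ s : ℝ, s ∈ uIoc (0 : ℝ) 1 → deriv γ s = 0 := by
      filter_upwards [hx] with s hs hs1
      have hmem : s ∈ uIcc (0 : ℝ) 1 := uIoc_subset_uIcc hs1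
      have hd' := hs (hmaps hmem)
      have h2 : HasDerivAt (fun t : ℝ => q (x + s • w + (t - s) • w)) 0 s :=
        HasDerivAt.comp_sub_const s s (by rw [sub_self]; exact hd')
      refine (h2.congr_of_eventuallyEq (Eventually.of_forall fun t => ?_)).deriv
      simp only [hγ]
      congr 1
      module
    have h1 := hL.absolutelyContinuousOnInterval.integral_deriv_eq_sub
    rw [intervalIntegral.integral_zero_ae h0] at h1
    simp only [hγ, one_smul, zero_smul, add_zero] at h1
    linarith
  have hc : ∀ x ∈ V, ContinuousAt q x ∧ ContinuousAt (fun y => q (y + w)) x := fun x hx => by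
    have h0 := hV x hx 0 ⟨le_rfl, zero_le_one⟩
    have h1 := hV x hx 1 ⟨zero_le_one, le_rfl⟩
    rw [zero_smul, add_zero] at h0
    rw [one_smul] at h1
    exact ⟨hq.continuousOn.continuousAt (hU'.mem_nhds h0),
      (hq.continuousOn.continuousAt (hU'.mem_nhds h1)).comp (f := fun y => y + w)
        (continuous_id.add continuous_const).continuousAt⟩
  have hae' : (fun y => q (y + w)) =ᵐ[μ.restrict V] q :=
    (ae_restrict_iff' hVo.measurableSet).2 hae
  exact Measure.eqOn_open_of_ae_eq hae' hVo (fun x hx => (hc x hx).2.continuousWithinAt)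
    (fun x hx => (hc x hx).1.continuousWithinAt) haV

end Vale.Agent.P084.Strict
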