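import Vale.Agent.P084.Strict.Lens
import Vale.Agent.P084.Strict.Along

/-!
From constancy of `G u + G (d - u)` on every lens to linearity.
-/

open Set Metric MeasureTheory Filter Topology Module

namespace Vale.Agent.P084.Strict

variable {E : Type*} [NormedAddCommGroup E] [NormedSpace ℝ E]

/-- A unit vector at which the norm and `G` are differentiable. -/
structure GoodAt (G : E → ℝ) (u : E) (ψ P : E →L[ℝ] ℝ) : Prop where
  unit : ‖u‖ = 1
  hψ : HasFDerivAt (fun x : E => ‖x‖) ψ u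
  hP : HasFDerivAt G P u

theorem deriv_scale {f : E → ℝ} (hf : ∀ (t : ℝ) x, 0 ≤ t → f (t • x) = t * f x) {x : E} {c : ℝ}
    (hc : 0 < c) {A : E →L[ℝ] ℝ} (h : HasFDerivAt f A x) : HasFDerivAt f A (c⁻¹ • x) := by
  have hlin : HasFDerivAt (fun y : E => c • y) (c • ContinuousLinearMap.id ℝ E) (c⁻¹ • x) :=
    (hasFDerivAt_id _).const_smul c
  have hx : c • c⁻¹ • x = x := by rw [smul_smul, mul_inv_cancel₀ hc.ne', one_smul]
  have h0 : HasFDerivAt f A (c • c⁻¹ • x) := by rwa [hx]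
  have h1 := (h0.comp (c⁻¹ • x) hlin).const_smul c⁻¹
  have e1 : c⁻¹ • A.comp (c • ContinuousLinearMap.id ℝ E) = A := by
    ext y; simp [hc.ne']
  rw [e1] at h1
  refine h1.congr_of_eventuallyEq (Eventually.of_forall fun y => ?_)
  simp only [Pi.smul_apply, Function.comp_apply, hf c y hc.le, smul_eq_mul]
  field_simp

theorem deriv_apply_self {f : E → ℝ} (hf : ∀ (t : ℝ) x, 0 ≤ t → f (t • x) = t * f x) {x : E}
    {A : E →L[ℝ] ℝ} (h : HasFDerivAt f A x) : A x = f x := by
  have h1 : HasDerivAt (fun t : ℝ => t • x) x 1 := by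
    simpa using (hasDerivAt_id (1 : ℝ)).smul_const x
  have h2 : HasDerivAt (fun t : ℝ => f (t • x)) (A x) 1 := by
    exact HasFDerivAt.comp_hasDerivAt (l := f) (1 : ℝ) (by rwa [one_smul]) h1
  have h3 : HasDerivAt (fun t : ℝ => t * f x) (f x) 1 := by
    simpa using (hasDerivAt_id (1 : ℝ)).mul_const (f x)
  refine h2.unique (h3.congr_of_eventuallyEq ?_)
  filter_upwards [Ioi_mem_nhds (zero_lt_one' ℝ)] with t ht
  exact hf t x (le_of_lt ht)

theorem norm_homog : ∀ (t : ℝ) (x : E), 0 ≤ t → ‖t • x‖ = t * ‖x‖ := fun t x ht => by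
  rw [norm_smul, Real.norm_of_nonneg ht]

theorem GoodAt.psi_self {G : E → ℝ} {u : E} {ψ P : E →L[ℝ] ℝ} (h : GoodAt G u ψ P) : ψ u = 1 := by
  rw [deriv_apply_self norm_homog h.hψ, h.unit]

theorem GoodAt.psi_le {G : E → ℝ} {u : E} {ψ P : E →L[ℝ] ℝ} (h : GoodAt G u ψ P) (z : E) :
    ψ z ≤ ‖z‖ := by
  have h1 : ‖ψ‖ ≤ 1 := by
    simpa using h.hψ.le_of_lipschitz (lipschitzWith_one_norm (E := E))
  calc ψ z ≤ ‖ψ z‖ := Real.le_norm_self _
    _ ≤ ‖ψ‖ * ‖z‖ := ψ.le_opNorm z
    _ ≤ ‖z‖ := mul_le_of_le_one_left (norm_nonneg _) h1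

/-- The short chord in direction `e` at a smooth point is close to that point. -/
theorem exists_chord {u e : E} {ψ : E →L[ℝ] ℝ} (hu : ‖u‖ = 1) (hψu : ψ u = 1)
    (hψ : ∀ z, ψ z ≤ ‖z‖) (he : ψ e = 0) (he0 : e ≠ 0) {t : ℝ} (ht : 0 < t)
    (ht1 : t * ‖e‖ < 1) :
    ∃ v ∈ Lens (t • e), ‖v - u‖ ≤ 2 * (t * ‖e‖) ∧ ‖v - t • e - u‖ ≤ 2 * (t * ‖e‖) := by
  set d := t • e with hd
  have hd0 : d ≠ 0 := smul_ne_zero ht.ne' he0
  have hdn : ‖d‖ = t * ‖e‖ := by rw [hd, norm_smul, Real.norm_of_nonneg ht.le]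
  have hψd : ψ d = 0 := by rw [hd, map_smul, he, smul_zero]
  have hw : ∀ c : ℝ, u ≠ c • d := fun c h => by
    rw [h, map_smul, hψd, smul_zero] at hψu
    exact zero_ne_one hψu
  obtain ⟨a, s, hs, hv⟩ := exists_lens hd0 (hdn ▸ ht1) hw
  obtain ⟨hv1, hv2⟩ := hv
  rw [norm_sub_rev, show s • u + a • d - d = s • u + (a - 1) • d by module] at hv2
  have hs1 : s ≤ 1 := by
    have := hψ (s • u + a • d)
    rw [map_add, map_smul, map_smul, hψd, smul_zero, add_zero, hψu, smul_eq_mul, mul_one,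
      hv1] at this
    exact this
  have hsu : ‖s • u‖ ≤ 1 := by rw [norm_smul, hu, Real.norm_of_nonneg hs.le, mul_one]; exact hs1
  -- when `a` is outside `[0, 1]` the chord lies in a segment of the sphere through `u`
  rcases eq_or_lt_of_le hs1 with h1 | hlt
  · subst h1
    rw [one_smul] at hv1 hv2 hsu
    have key : ∀ c : ℝ, 1 ≤ ‖u + c • d‖ := fun c => by
      have h := hψ (u + c • d)
      rwa [map_add, map_smul, hψd, smul_zero, add_zero, hψu] at h
    have hline : ∀ x y c : ℝ, ‖u + x • d‖ ≤ 1 → ‖u + y • d‖ ≤ 1 → x ≤ c → c ≤ y →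
        ‖u + c • d‖ = 1 := fun x y c hx hy h1 h2 => by
      have hx' : u + x • d ∈ closedBall (0 : E) 1 := mem_closedBall_zero_iff.2 hx
      have hy' : u + y • d ∈ closedBall (0 : E) 1 := mem_closedBall_zero_iff.2 hy
      have hm : u + c • d ∈ segment ℝ (u + x • d) (u + y • d) := by
        rcases eq_or_lt_of_le (h1.trans h2) with hxy | hxy
        · rw [show c = x by linarith]
          exact left_mem_segment _ _ _
        · refine ⟨(y - c) / (y - x), (c - x) / (y - x), div_nonneg (by linarith) (by linarith),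
            div_nonneg (by linarith) (by linarith), ?_, ?_⟩
          · rw [← add_div, div_eq_one_iff_eq (by linarith)]
            ring
          · have : y - x ≠ 0 := by linarith
            match_scalars <;> field_simp <;> ring
      exact le_antisymm (mem_closedBall_zero_iff.1 ((convex_closedBall (0 : E) 1).segment_subset
        hx' hy' hm)) (key c)
    have hu0 : ‖u + (0 : ℝ) • d‖ ≤ 1 := by rw [zero_smul, add_zero, hu]
    have hbd : t * ‖e‖ ≤ 2 * (t * ‖e‖) := by linarith [mul_nonneg ht.le (norm_nonneg e)]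
    by_cases ha1 : 1 < a
    · refine ⟨u + d, ⟨?_, ?_⟩, ?_, ?_⟩
      · simpa using hline 0 a 1 hu0 hv1.le zero_le_one ha1.le
      · rw [sub_add_cancel_right, norm_neg, hu]
      · rw [add_sub_cancel_left, hdn]; exact hbd
      · rw [add_sub_cancel_right, sub_self, norm_zero]; linarith
    by_cases ha0 : a < 0
    · refine ⟨u, ⟨hu, ?_⟩, ?_, ?_⟩
      · have := hline (a - 1) 0 (-1) hv2.le hu0 (by linarith) (by norm_num)
        rw [neg_one_smul, ← sub_eq_add_neg, norm_sub_rev] at this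
        exact this
      · rw [sub_self, norm_zero]; linarith
      · rw [sub_sub_cancel_left, norm_neg, hdn]; exact hbd
    rw [not_lt] at ha1 ha0
    have had : ∀ c : ℝ, |c| ≤ 1 → ‖c • d‖ ≤ 2 * (t * ‖e‖) := fun c hc => by
      rw [norm_smul, Real.norm_eq_abs, hdn]
      linarith [mul_le_of_le_one_left (mul_nonneg ht.le (norm_nonneg e)) hc]
    refine ⟨u + a • d, ⟨hv1, ?_⟩, ?_, ?_⟩
    · rw [norm_sub_rev, show u + a • d - d = u + (a - 1) • d by module]; exact hv2
    · rw [add_sub_cancel_left]; exact had a (abs_le.2 ⟨by linarith, ha1⟩)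
    · rw [show u + a • d - d - u = (a - 1) • d by module]
      exact had _ (abs_le.2 ⟨by linarith, by linarith⟩)
  have hsu' : ‖s • u‖ < 1 := by
    rw [norm_smul, hu, Real.norm_of_nonneg hs.le, mul_one]; exact hlt
  have hcomb : ∀ {z p : E} {c : ℝ}, 0 ≤ c → c < 1 → ‖p‖ = 1 → z = (1 - c) • (s • u) + c • p →
      ‖z‖ < 1 := fun {z p c} hc0 hc1 hp hz => by
    rw [hz]
    refine (norm_add_le _ _).trans_lt ?_
    rw [norm_smul (1 - c), norm_smul c, hp, Real.norm_of_nonneg hc0,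
      Real.norm_of_nonneg (by linarith : (0 : ℝ) ≤ 1 - c)]
    linarith [mul_lt_mul_of_pos_left hsu' (by linarith : (0 : ℝ) < 1 - c)]
  have ha1 : a ≤ 1 := by
    by_contra ha
    have ha' : 1 < a := not_le.1 ha
    have h := hcomb (z := s • u + (a - 1) • d) (p := s • u + a • d) (c := (a - 1) / a)
      (div_nonneg (by linarith) (by linarith)) ((div_lt_one (by linarith)).2 (by linarith)) hv1
      (by have : a ≠ 0 := by linarith
          match_scalars <;> field_simp <;> ring)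
    exact h.ne hv2
  have ha0 : 0 ≤ a := by
    by_contra ha
    have ha' : a < 0 := not_le.1 ha
    have h := hcomb (z := s • u + a • d) (p := s • u + (a - 1) • d) (c := a / (a - 1))
      (div_nonneg_of_nonpos (by linarith) (by linarith))
      (by rw [div_lt_one_of_neg (by linarith)]; linarith) hv2
      (by have : a - 1 ≠ 0 := by linarith
          match_scalars <;> field_simp <;> ring)
    exact h.ne hv1
  have had : ∀ c : ℝ, |c| ≤ 1 → ‖c • d‖ ≤ t * ‖e‖ := fun c hc => by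
    rw [norm_smul, Real.norm_eq_abs, hdn]
    exact mul_le_of_le_one_left (by positivity) hc
  have hsl : 1 - s ≤ t * ‖e‖ := by
    have := norm_add_le (s • u) (a • d)
    rw [hv1, norm_smul, hu, Real.norm_of_nonneg hs.le, mul_one] at this
    linarith [had a (abs_le.2 ⟨by linarith, ha1⟩)]
  have hsu' : ‖(s - 1) • u‖ = 1 - s := by
    rw [norm_smul, hu, mul_one, Real.norm_eq_abs, abs_of_nonpos (by linarith)]
    ring
  refine ⟨s • u + a • d, ⟨hv1, ?_⟩, ?_, ?_⟩
  · rw [norm_sub_rev, show s • u + a • d - d = s • u + (a - 1) • d by module]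
    exact hv2
  · rw [show s • u + a • d - u = (s - 1) • u + a • d by module]
    refine (norm_add_le _ _).trans ?_
    rw [hsu']
    linarith [had a (abs_le.2 ⟨by linarith, ha1⟩)]
  · rw [show s • u + a • d - d - u = (s - 1) • u + (a - 1) • d by module]
    refine (norm_add_le _ _).trans ?_
    rw [hsu']
    linarith [had (a - 1) (abs_le.2 ⟨by linarith, by linarith⟩)]

variable {G : E → ℝ} (hodd : ∀ x, G (-x) = -G x)
  (hsum : ∀ d : E, d ≠ 0 → ‖d‖ < 1 → ∀ u ∈ Lens d, ∀ u' ∈ Lens d,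
    G u + G (d - u) = G u' + G (d - u'))

include hodd hsum

/-- The derivatives at two smooth points agree on common tangent vectors. -/
theorem deriv_agree {u u' : E} {ψ P ψ' P' : E →L[ℝ] ℝ} (h : GoodAt G u ψ P)
    (h' : GoodAt G u' ψ' P') {e : E} (he : ψ e = 0) (he' : ψ' e = 0) : P e = P' e := by
  rcases eq_or_ne e 0 with rfl | he0
  · simp
  have hne : 0 < ‖e‖ := norm_pos_iff.2 he0
  refine eq_of_forall_dist_le fun η hη => ?_
  set η' := η / (8 * ‖e‖) with hη'
  have hη'0 : 0 < η' := by positivity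
  obtain ⟨δ, hδ, h1⟩ := Metric.eventually_nhds_iff.1 (h.hP.isLittleO.def hη'0)
  obtain ⟨δ', hδ', h2⟩ := Metric.eventually_nhds_iff.1 (h'.hP.isLittleO.def hη'0)
  set t := min (min δ δ') 1 / (4 * ‖e‖) with ht
  have ht0 : 0 < t := by positivity
  have hte : t * ‖e‖ = min (min δ δ') 1 / 4 := by rw [ht]; field_simp
  have hm1 := min_le_right (min δ δ') 1
  have hm2 := (min_le_left (min δ δ') 1).trans (min_le_left δ δ')
  have hm3 := (min_le_left (min δ δ') 1).trans (min_le_right δ δ')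
  have ht1 : t * ‖e‖ < 1 := by linarith
  have bound : ∀ {u : E} {ψ P : E →L[ℝ] ℝ}, GoodAt G u ψ P → ψ e = 0 → ∀ {δ : ℝ},
      4 * (t * ‖e‖) ≤ δ →
      (∀ ⦃y : E⦄, dist y u < δ → ‖G y - G u - P (y - u)‖ ≤ η' * ‖y - u‖) →
      ∃ v ∈ Lens (t • e), |G v + G (t • e - v) - t * P e| ≤ 4 * η' * (t * ‖e‖) := by
    intro u ψ P h he δ hδ hb
    obtain ⟨v, hv, hv1, hv2⟩ := exists_chord h.unit h.psi_self h.psi_le he he0 ht0 ht1
    have hpos : 0 < t * ‖e‖ := by positivity
    have b1 := hb (y := v) (by rw [dist_eq_norm]; linarith)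
    have b2 := hb (y := v - t • e) (by rw [dist_eq_norm]; linarith)
    rw [Real.norm_eq_abs] at b1 b2
    refine ⟨v, hv, ?_⟩
    have hlin : P (v - u) - P (v - t • e - u) = t * P e := by
      rw [← map_sub, show v - u - (v - t • e - u) = t • e by abel, map_smul, smul_eq_mul]
    rw [← neg_sub v, hodd]
    have hb1 := mul_le_mul_of_nonneg_left hv1 hη'0.le
    have hb2 := mul_le_mul_of_nonneg_left hv2 hη'0.le
    rw [abs_le] at b1 b2 ⊢
    constructor <;> linarith
  obtain ⟨v, hv, hb⟩ := bound h he (δ := δ) (by linarith) h1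
  obtain ⟨v', hv', hb'⟩ := bound h' he' (δ := δ') (by linarith) h2
  have hs := hsum (t • e) (smul_ne_zero ht0.ne' he0)
    (by rw [norm_smul, Real.norm_of_nonneg ht0.le]; exact ht1) v hv v' hv'
  rw [hs, abs_le] at hb
  rw [abs_le] at hb'
  have key : t * |P e - P' e| ≤ t * η := by
    have e8 : 4 * η' * (t * ‖e‖) + 4 * η' * (t * ‖e‖) = t * η := by rw [hη']; field_simp; ring
    rw [← abs_of_pos ht0, ← abs_mul, abs_of_pos ht0, abs_le, mul_sub]
    constructor <;> linarith
  rw [Real.dist_eq]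
  exact le_of_mul_le_mul_left key ht0

omit hodd hsum in
/-- A functional vanishing on two hyperplanes' intersection is a combination of their normals. -/
theorem combo_of_ker {R a b : E →L[ℝ] ℝ} (h : ∀ x, a x = 0 → b x = 0 → R x = 0) :
    ∃ α β : ℝ, ∀ x, R x = α * a x + β * b x := by
  have hm : (R : E →ₗ[ℝ] ℝ) ∈ Submodule.span ℝ (range ![(a : E →ₗ[ℝ] ℝ), (b : E →ₗ[ℝ] ℝ)]) := by
    refine mem_span_of_iInf_ker_le_ker fun x hx => ?_
    rw [Submodule.mem_iInf] at hx
    exact h x (by simpa using hx 0) (by simpa using hx 1)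
  obtain ⟨c, hc⟩ := (Submodule.mem_span_range_iff_exists_fun ℝ).1 hm
  refine ⟨c 0, c 1, fun x => ?_⟩
  have := LinearMap.congr_fun hc x
  simpa [Fin.sum_univ_two] using this.symm

/-- All derivatives at smooth points come from one linear functional. -/
theorem exists_common {u1 u2 u3 : E} {ψ1 P1 ψ2 P2 ψ3 P3 : E →L[ℝ] ℝ}
    (h1 : GoodAt G u1 ψ1 P1) (h2 : GoodAt G u2 ψ2 P2) (h3 : GoodAt G u3 ψ3 P3)
    (hind : ∀ a b c : ℝ, (∀ x, a * ψ1 x + b * ψ2 x + c * ψ3 x = 0) → a = 0 ∧ b = 0 ∧ c = 0) :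
    ∃ L : E →L[ℝ] ℝ, ∀ u ψ P, GoodAt G u ψ P → ∃ k : ℝ, ∀ x, P x = L x + k * ψ x := by
  obtain ⟨α, β, hαβ⟩ := combo_of_ker (R := P2 - P1) (a := ψ1) (b := ψ2) fun x x1 x2 => by
    simp [deriv_agree hodd hsum h2 h1 x2 x1]
  simp only [sub_apply] at hαβ
  set L := P1 + α • ψ1 with hL
  have hL1 : ∀ x, ψ1 x = 0 → L x = P1 x := fun x hx => by simp [hL, hx]
  have hL2 : ∀ x, ψ2 x = 0 → L x = P2 x := fun x hx => by
    have := hαβ x
    rw [hx] at this
    simp [hL]
    linarith
  have hL3 : ∀ x, ψ3 x = 0 → L x = P3 x := by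
    obtain ⟨a, b, hab⟩ := combo_of_ker (R := P3 - L) (a := ψ3) (b := ψ1) fun x x3 x1 => by
      rw [sub_apply, hL1 x x1, deriv_agree hodd hsum h3 h1 x3 x1, sub_self]
    obtain ⟨a', b', hab'⟩ := combo_of_ker (R := P3 - L) (a := ψ3) (b := ψ2) fun x x3 x2 => by
      rw [sub_apply, hL2 x x2, deriv_agree hodd hsum h3 h2 x3 x2, sub_self]
    have hb := (hind b (-b') (a - a') fun x => by linarith [hab x, hab' x]).1
    intro x hx
    have := hab x
    rw [hb, hx, sub_apply] at this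
    linarith
  refine ⟨L, fun u ψ P h => ?_⟩
  obtain ⟨a, b, hab⟩ := combo_of_ker (R := P - L) (a := ψ) (b := ψ1) fun x x0 x1 => by
    rw [sub_apply, hL1 x x1, deriv_agree hodd hsum h h1 x0 x1, sub_self]
  obtain ⟨a', b', hab'⟩ := combo_of_ker (R := P - L) (a := ψ) (b := ψ2) fun x x0 x2 => by
    rw [sub_apply, hL2 x x2, deriv_agree hodd hsum h h2 x0 x2, sub_self]
  obtain ⟨a'', b'', hab''⟩ := combo_of_ker (R := P - L) (a := ψ) (b := ψ3) fun x x0 x3 => by
    rw [sub_apply, hL3 x x3, deriv_agree hodd hsum h h3 x0 x3, sub_self]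
  simp only [sub_apply] at hab hab' hab''
  obtain ⟨k, hk⟩ : ∃ k : ℝ, ∀ x, P x - L x = k * ψ x := by
    by_cases hb : b = 0
    · exact ⟨a, fun x => by simpa [hb] using hab x⟩
    obtain ⟨k1, k2, k3⟩ := hind ((a'' - a') * b) (-((a'' - a) * b')) ((a' - a) * b'') fun x => by
      linear_combination (a'' - a') * (-hab x) + (a'' - a) * hab' x - (a' - a) * hab'' x
    by_cases ha : a' = a
    · refine absurd ((hind b (-b') 0 fun x => ?_).1) hb
      have := hab x
      have := hab' x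
      rw [ha] at this
      linarith
    · have ha'' : a'' - a ≠ 0 := fun hz => by
        rcases mul_eq_zero.1 k1 with hz' | hz'
        · exact ha (by linarith)
        · exact hb hz'
      refine ⟨a', fun x => ?_⟩
      have hb' : b' = 0 := (mul_eq_zero.1 (neg_eq_zero.1 k2)).resolve_left ha''
      simpa [hb'] using hab' x
  exact ⟨k, fun x => by linarith [hk x]⟩

end Vale.Agent.P084.Strict
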