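import Mathlib

/-!
The intersection of the unit sphere with a translate, in a strictly convex space.
-/

open Set Metric

namespace Vale.Agent.P084.Strict

variable {E : Type*} [NormedAddCommGroup E] [NormedSpace ℝ E]

/-- The unit vectors `u` whose complement `d - u` is a unit vector too. -/
def Lens (d : E) : Set E := {u | ‖u‖ = 1 ∧ ‖d - u‖ = 1}

theorem lens_compl {d u : E} (h : u ∈ Lens d) : d - u ∈ Lens d :=
  ⟨h.2, by rw [sub_sub_cancel]; exact h.1⟩

/-- Additivity on equilateral triangles makes `G u + G (d - u)` invariant under unit steps. -/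
theorem unit_step {G : E → ℝ}
    (htri : ∀ a b : E, ‖a‖ = 1 → ‖b‖ = 1 → ‖a - b‖ = 1 → G (a - b) = G a - G b)
    {d u q : E} (hu : u ∈ Lens d) (hq : q ∈ Lens d) (h : ‖u - q‖ = 1) :
    G u + G (d - u) = G q + G (d - q) := by
  have h1 := htri u q hu.1 hq.1 h
  have h2 := htri (d - q) (u - q) hq.2 h (by rw [sub_sub_sub_cancel_right]; exact hu.2)
  rw [sub_sub_sub_cancel_right] at h2
  linarith

theorem not_smul_of_lens {d u : E} (hd1 : ‖d‖ < 1) (hu : u ∈ Lens d) (c : ℝ) : u ≠ c • d := by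
  rintro rfl
  have h1 := hu.1
  have h2 := hu.2
  rw [show d - c • d = (1 - c) • d by module, norm_smul, Real.norm_eq_abs] at h2
  rw [norm_smul, Real.norm_eq_abs] at h1
  have h3 : |c| = |1 - c| := by
    rcases eq_or_ne ‖d‖ 0 with h | h
    · simp [h] at h1
    · exact mul_right_cancel₀ h (h1.trans h2.symm)
  have h4 : c = 1 / 2 := by
    rcases abs_eq_abs.1 h3 with h | h <;> linarith
  rw [h4, abs_of_pos (by norm_num : (0 : ℝ) < 1 / 2)] at h1
  linarith

variable [StrictConvexSpace ℝ E]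

/-- On a line there is at most one admissible shift. -/
theorem line_unique {w d : E} (hd : d ≠ 0) {a b : ℝ} (ha : ‖w + a • d‖ = 1)
    (ha' : ‖w + (a - 1) • d‖ = 1) (hb : ‖w + b • d‖ ≤ 1) (hb' : ‖w + (b - 1) • d‖ ≤ 1) :
    b = a := by
  have hne : ∀ {p q : ℝ}, p ≠ q → w + p • d ≠ w + q • d := fun hpq h =>
    hpq (smul_left_injective ℝ hd (add_left_cancel h))
  rcases lt_trichotomy b a with h | h | h
  · exfalso
    have hlt : ‖(1 / (a - b + 1)) • (w + (b - 1) • d) + ((a - b) / (a - b + 1)) • (w + a • d)‖ < 1 :=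
      norm_combo_lt_of_ne hb' ha.le (hne (by linarith)) (by positivity)
        (div_pos (by linarith) (by linarith)) (by field_simp; ring)
    have he : (1 / (a - b + 1)) • (w + (b - 1) • d) + ((a - b) / (a - b + 1)) • (w + a • d)
        = w + (a - 1) • d := by
      have : a - b + 1 ≠ 0 := by linarith
      match_scalars <;> field_simp <;> ring
    rw [he, ha'] at hlt
    linarith
  · exact h
  · exfalso
    have hlt : ‖((b - a) / (b - a + 1)) • (w + (a - 1) • d) + (1 / (b - a + 1)) • (w + b • d)‖ < 1 :=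
      norm_combo_lt_of_ne ha'.le hb (hne (by linarith)) (div_pos (by linarith) (by linarith))
        (by positivity) (by field_simp)
    have he : ((b - a) / (b - a + 1)) • (w + (a - 1) • d) + (1 / (b - a + 1)) • (w + b • d)
        = w + a • d := by
      have : b - a + 1 ≠ 0 := by linarith
      match_scalars <;> field_simp <;> ring
    rw [he, ha] at hlt
    linarith

/-- The radial coordinate of a point of the lens determines it. -/
theorem lens_inj_aux {w d : E} (hd : d ≠ 0) (hd1 : ‖d‖ < 1) {a b s : ℝ} (hs : 1 ≤ s)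
    (ha : w + a • d ∈ Lens d) (hb : s • w + b • d ∈ Lens d) : s = 1 ∧ b = a := by
  obtain ⟨ha, ha'⟩ := ha
  obtain ⟨hb, hb'⟩ := hb
  rw [norm_sub_rev, show w + a • d - d = w + (a - 1) • d by module] at ha'
  rw [norm_sub_rev] at hb'
  set t := s⁻¹ with ht
  have hs0 : 0 < s := by linarith
  have ht0 : 0 < t := inv_pos.2 hs0
  have ht1 : t ≤ 1 := inv_le_one_of_one_le₀ hs
  set c := t * b + (1 - t) / 2 with hc
  have h1 : ‖w + c • d‖ ≤ t + (1 - t) / 2 * ‖d‖ := by
    have he : w + c • d = t • (s • w + b • d) + ((1 - t) / 2) • d := by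
      rw [smul_add, smul_smul, smul_smul, ht, inv_mul_cancel₀ hs0.ne', one_smul, hc]
      module
    rw [he]
    refine (norm_add_le _ _).trans ?_
    rw [norm_smul, norm_smul, hb, Real.norm_of_nonneg ht0.le,
      Real.norm_of_nonneg (by linarith : (0 : ℝ) ≤ (1 - t) / 2), mul_one]
  have h2 : ‖w + (c - 1) • d‖ ≤ t + (1 - t) / 2 * ‖d‖ := by
    have he : w + (c - 1) • d = t • (s • w + b • d - d) - ((1 - t) / 2) • d := by
      rw [smul_sub, smul_add, smul_smul, smul_smul, ht, inv_mul_cancel₀ hs0.ne', one_smul, hc]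
      module
    rw [he]
    refine (norm_sub_le _ _).trans ?_
    rw [norm_smul, norm_smul, hb', Real.norm_of_nonneg ht0.le,
      Real.norm_of_nonneg (by linarith : (0 : ℝ) ≤ (1 - t) / 2), mul_one]
  have hle : t + (1 - t) / 2 * ‖d‖ ≤ 1 := by
    nlinarith [norm_nonneg d, mul_le_mul_of_nonneg_left hd1.le (by linarith : (0 : ℝ) ≤ 1 - t)]
  have hca := line_unique hd ha ha' (h1.trans hle) (h2.trans hle)
  rw [hca, ha] at h1
  have ht' : t = 1 := by
    nlinarith [mul_le_mul_of_nonneg_left hd1.le (by linarith : (0 : ℝ) ≤ 1 - t)]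
  have hs1 : s = 1 := by rw [← inv_inv s, ← ht, ht', inv_one]
  refine ⟨hs1, ?_⟩
  rw [← hca, hc, ht']
  ring

/-- Two points of the lens with positively proportional projections are equal. -/
theorem lens_inj {w d : E} (hd : d ≠ 0) (hd1 : ‖d‖ < 1) {a b s : ℝ} (hs : 0 < s)
    (ha : w + a • d ∈ Lens d) (hb : s • w + b • d ∈ Lens d) : s = 1 ∧ b = a := by
  rcases le_total 1 s with h | h
  · exact lens_inj_aux hd hd1 h ha hb
  · have := lens_inj_aux (w := s • w) (a := b) (b := a) (s := s⁻¹) hd hd1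
      ((one_le_inv₀ hs).2 h) hb (by rwa [smul_smul, inv_mul_cancel₀ hs.ne', one_smul])
    exact ⟨by rw [← inv_inv s, this.1, inv_one], this.2.symm⟩

omit [StrictConvexSpace ℝ E] in
/-- Every half plane through `ℝ d` meets the lens. -/
theorem exists_lens {w d : E} (hd : d ≠ 0) (hd1 : ‖d‖ < 1) (hw : ∀ c : ℝ, w ≠ c • d) :
    ∃ a s : ℝ, 0 < s ∧ s • w + a • d ∈ Lens d := by
  set γ : ℝ → E := fun τ => τ • d + (1 - |τ|) • w with hγ
  have hγ0 : ∀ τ, γ τ ≠ 0 := by
    intro τ h
    rcases eq_or_ne (1 - |τ|) 0 with h1 | h1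
    · rw [hγ] at h
      simp only [h1, zero_smul, add_zero, smul_eq_zero] at h
      rcases h with h | h
      · rw [h, abs_zero] at h1
        norm_num at h1
      · exact hd h
    · apply hw (-τ / (1 - |τ|))
      have h' : (1 - |τ|) • w = (-τ) • d := by
        rw [neg_smul]
        exact eq_neg_of_add_eq_zero_right h
      rw [div_eq_inv_mul, mul_smul, ← h', smul_smul, inv_mul_cancel₀ h1, one_smul]
  set h : ℝ → ℝ := fun τ => ‖d - ‖γ τ‖⁻¹ • γ τ‖ with hh
  have hγc : Continuous γ := by rw [hγ]; fun_prop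
  have hc : Continuous h := by
    refine (continuous_const.sub ?_).norm
    exact ((hγc.norm).inv₀ fun τ => norm_ne_zero_iff.2 (hγ0 τ)).smul hγc
  have hr : 0 < ‖d‖ := norm_pos_iff.2 hd
  have h1 : h 1 = 1 - ‖d‖ := by
    have e : γ 1 = d := by simp [hγ]
    rw [hh]
    simp only [e]
    rw [show d - ‖d‖⁻¹ • d = (1 - ‖d‖⁻¹) • d by module, norm_smul, Real.norm_eq_abs,
      abs_of_nonpos (by linarith [(one_le_inv₀ hr).2 hd1.le])]
    field_simp
    ring
  have h2 : h (-1) = 1 + ‖d‖ := by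
    have e : γ (-1) = -d := by simp [hγ]
    rw [hh]
    simp only [e, norm_neg]
    rw [show d - ‖d‖⁻¹ • -d = (1 + ‖d‖⁻¹) • d by module, norm_smul,
      Real.norm_of_nonneg (by positivity)]
    field_simp
    ring
  obtain ⟨τ, hτ, hτ1⟩ := intermediate_value_Icc' (show (-1 : ℝ) ≤ 1 by norm_num) hc.continuousOn
    (show (1 : ℝ) ∈ Icc (h 1) (h (-1)) by rw [h1, h2]; constructor <;> linarith)
  have hn : 0 < ‖γ τ‖ := norm_pos_iff.2 (hγ0 τ)
  have habs : |τ| < 1 := by
    refine lt_of_le_of_ne (abs_le.2 hτ) fun he => ?_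
    rcases (abs_eq zero_le_one).1 he with h' | h'
    · rw [h', h1] at hτ1
      linarith
    · rw [h', h2] at hτ1
      linarith
  refine ⟨‖γ τ‖⁻¹ * τ, ‖γ τ‖⁻¹ * (1 - |τ|), mul_pos (inv_pos.2 hn) (by linarith), ?_⟩
  have e : (‖γ τ‖⁻¹ * (1 - |τ|)) • w + (‖γ τ‖⁻¹ * τ) • d = ‖γ τ‖⁻¹ • γ τ := by
    simp only [hγ]
    module
  rw [e]
  refine ⟨?_, hτ1⟩
  rw [norm_smul, norm_inv, norm_norm, inv_mul_cancel₀ hn.ne']

end Vale.Agent.P084.Strict
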